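import Vale.Agent.P167.H906.Peel
import Vale.Agent.P167.FKA.Dual

/-!
# P167: the annulus bound and the decay of arms from crossings of rectangles, `0 < Q ≤ 1`

* `peel_gen`, `peel`: the probability that the annulus is not crossed by closed squares;
* `VR`: crossings of rectangles the long way, everything open outside;
* `tsd`, `tsp`: uniform bounds for the arms; `arms`: the decay `ArmDec`, `ArmDecD`.
-/

set_option autoImplicit false

namespace Vale.Agent.P167.H906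

open Finset
open Relation (ReflTransGen)
open Vale.Agent.P145.FB (PStep PConn)
open Vale.Agent.P167 Vale.Agent.P167.FK Vale.Agent.P167.H262
open Vale.Agent.P167.FKA (ArmDec ArmDecD Loc Ind)

variable {Q : ℝ} {A : Set (ℤ × ℤ)} {Z D : Finset (ℤ × ℤ)} {η ω : Cfg}

/-- One step of the exploration. -/
theorem step_of (hQ : 0 < Q) (hη : Good η) (PK : Set (ℤ × ℤ) → Prop)
    (C : Set (ℤ × ℤ) → Set Cfg) {F : Set Cfg}
    (hdet : ∀ ω, PK (Kc A Z ω) → ω ∈ C (Kc A Z ω) → ω ∈ F) {c0 : ℝ}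
    (h : ∀ S ⊆ D, PK (Kc A Z (cf D η S)) → c0 ≤ Pr Q (D \ Lc D (Kc A Z (cf D η S)))
      (cf D η S) (C (Kc A Z (cf D η S)))) :
    c0 * Pr Q D η {ω | PK (Kc A Z ω)} ≤ Pr Q D η F := by
  have hK : ∀ ω ω' : Cfg, (∀ v, v ∉ D \ Lc D (Kc A Z ω) → ω v = ω' v) →
      Kc A Z ω' = Kc A Z ω := by
    intro ω ω' h1
    refine Kc_eq fun v _ hv => h1 v fun h2 => ?_
    rw [Finset.mem_sdiff, mem_Lc] at h2
    exact h2.2 ⟨h2.1, hv⟩
  refine (H816.stop_le hQ hη (E := fun ω => D \ Lc D (Kc A Z ω)) (A := {ω | PK (Kc A Z ω)})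
    (F := F) (fun ω => Finset.sdiff_subset) (fun ω ω' h1 => ?_) (fun ω ω' h1 => ?_)
    (fun S hS hSA => ?_)).trans (FKA.Pr_mono hQ Set.inter_subset_right)
  · show D \ Lc D (Kc A Z ω') = D \ Lc D (Kc A Z ω)
    rw [hK ω ω' h1]
  · show PK (Kc A Z ω) ↔ PK (Kc A Z ω')
    rw [hK ω ω' h1]
  · refine (h S hS hSA).trans (FKA.Ex_mono hQ fun S' hS' => ?_)
    set ω := cf D η S with hω
    set ω' := cf (D \ Lc D (Kc A Z ω)) ω S' with hω'
    have h1 : Kc A Z ω' = Kc A Z ω := hK ω ω' fun v hv => (FKA.cf_out hv).symm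
    by_cases h2 : ω' ∈ C (Kc A Z ω)
    · have h3 : ω' ∈ F := by
        refine hdet ω' ?_ ?_
        · rw [h1]; exact hSA
        · rw [h1]; exact h2
      rw [Set.indicator_of_mem h2, Set.indicator_of_mem h3]
    · rw [Set.indicator_of_notMem h2]
      exact Set.indicator_nonneg (fun _ _ => zero_le_one) _

/-- The crossing of the rest of a strip. -/
theorem cross_ge (hQ : 0 < Q) (hQ1 : Q ≤ 1) {a b c d : ℤ} {K : Set (ℤ × ℤ)} {P1 P2 : ℤ × ℤ → Prop}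
    {E1 E2 : Set (ℤ × ℤ)} (hE1 : E1 ⊆ Pb (Rsq a b c d)) (hE2 : E2 ⊆ Pb (Rsq a b c d))
    (hP : ∀ s ∈ Rsq a b c d, s ∈ Tc K → P1 s ∨ P2 s) (hD : Rsq a b c d ⊆ D) {ζ : Cfg}
    (hζ : Good ζ) :
    Pr Q (Rsq a b c d) eta1 (CI (Rsq a b c d) E1 E2) ≤
      Pr Q (D \ Lc D K) ζ (CI (Rsq a b c d \ Lc (Rsq a b c d) K)
        (Xc K (Rsq a b c d) P1 E1) (Xc K (Rsq a b c d) P2 E2)) := by
  refine rough_rect hQ hQ1 hζ hE1 hE2 Set.subset_union_left Set.subset_union_left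
    (fun e he heS => ?_) (fun e he => ?_)
  · have h1 := (mem_Lc.1 he).2
    rcases hP e heS h1 with h2 | h2
    · exact Or.inl ⟨Or.inr ⟨e, heS, h2, h1, Or.inl rfl⟩, Or.inr ⟨e, heS, h2, h1, Or.inr rfl⟩⟩
    · exact Or.inr ⟨Or.inr ⟨e, heS, h2, h1, Or.inl rfl⟩, Or.inr ⟨e, heS, h2, h1, Or.inr rfl⟩⟩
  · rw [Finset.mem_sdiff, mem_Lc] at *
    exact ⟨hD he.1, fun h => he.2 ⟨he.1, h.2⟩⟩

theorem EL_sub {a b c d : ℤ} : EL a b c d ⊆ Pb (Rsq a b c d) := fun _ h =>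
  mem_Pb_rect h.1 (Or.inl h.2.2.le)

theorem ER_sub {a b c d : ℤ} : ER a b c d ⊆ Pb (Rsq a b c d) := fun _ h =>
  mem_Pb_rect h.1 (Or.inr (Or.inl h.2.2.ge))

theorem EB_sub {a b c d : ℤ} : EB a b c d ⊆ Pb (Rsq a b c d) := fun _ h =>
  mem_Pb_rect h.1 (Or.inr (Or.inr (Or.inl h.2.2.le)))

theorem ET_sub {a b c d : ℤ} : ET a b c d ⊆ Pb (Rsq a b c d) := fun _ h =>
  mem_Pb_rect h.1 (Or.inr (Or.inr (Or.inr h.2.2.ge)))

theorem CI_symm {E : Finset (ℤ × ℤ)} {X Y : Set (ℤ × ℤ)} : CI E X Y = CI E Y X := by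
  ext ω
  exact ⟨fun ⟨u, hu, v, hv, h⟩ => ⟨v, hv, u, hu, rtg_symm h⟩,
    fun ⟨u, hu, v, hv, h⟩ => ⟨v, hv, u, hu, rtg_symm h⟩⟩

namespace Geo

variable (g : Geo)

/-- **The peel** with arbitrary conditional bounds. -/
theorem peel_gen (hQ : 0 < Q) (hη : Good η) {c1 c2 c3 c4 : ℝ} (h20 : 0 ≤ c2) (h30 : 0 ≤ c3)
    (h40 : 0 ≤ c4) (h1 : c1 ≤ Pr Q D η g.C1)
    (h2 : ∀ S ⊆ D, g.P1 (g.K1 (cf D η S)) →
      c2 ≤ Pr Q (D \ Lc D (g.K1 (cf D η S))) (cf D η S) (g.C2 (g.K1 (cf D η S))))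
    (h3 : ∀ S ⊆ D, g.P2 (g.K2 (cf D η S)) →
      c3 ≤ Pr Q (D \ Lc D (g.K2 (cf D η S))) (cf D η S) (g.C3 (g.K2 (cf D η S))))
    (h4 : ∀ S ⊆ D, g.P3 (g.K3 (cf D η S)) →
      c4 ≤ Pr Q (D \ Lc D (g.K3 (cf D η S))) (cf D η S) (g.C4 (g.K3 (cf D η S)))) :
    c4 * (c3 * (c2 * c1)) ≤ Pr Q D η {ω | g.P4 (g.K4 ω)} := by
  have e1 : c1 ≤ Pr Q D η {ω | g.P1 (g.K1 ω)} :=
    h1.trans (FKA.Pr_mono hQ fun ω hω => g.det1 hω)
  have e2 : c2 * c1 ≤ Pr Q D η {ω | g.P2 (g.K2 ω)} :=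
    (mul_le_mul_of_nonneg_left e1 h20).trans
      (step_of hQ hη g.P1 g.C2 (fun ω k1 k2 => g.det2 k1 k2) h2)
  have e3 : c3 * (c2 * c1) ≤ Pr Q D η {ω | g.P3 (g.K3 ω)} :=
    (mul_le_mul_of_nonneg_left e2 h30).trans
      (step_of hQ hη g.P2 g.C3 (fun ω k1 k2 => g.det3 k1 k2) h3)
  exact (mul_le_mul_of_nonneg_left e3 h40).trans
      (step_of hQ hη g.P3 g.C4 (fun ω k1 k2 => g.det4 k1 k2) h4)

/-- **The peel** of an annulus of free squares. -/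
theorem peel (hQ : 0 < Q) (hQ1 : Q ≤ 1) (hη : Good η) (hD : g.Z4 ⊆ D) {c0 : ℝ} (h0 : 0 ≤ c0)
    (h1 : c0 ≤ Pr Q g.S1 eta1 (CI g.S1 (EL g.a g.b g.d' g.d) (ER g.a g.b g.d' g.d)))
    (h2 : c0 ≤ Pr Q g.S2 eta1 (CI g.S2 (ET g.a g.a' g.c g.d) (EB g.a g.a' g.c g.d)))
    (h3 : c0 ≤ Pr Q g.S3 eta1 (CI g.S3 (EL g.a g.b g.c g.c') (ER g.a g.b g.c g.c')))
    (h4 : c0 ≤ Pr Q g.S4 eta1 (CI g.S4 (ET g.b' g.b g.c g.d) (EB g.b' g.b g.c g.d))) :
    c0 ^ 4 ≤ Pr Q D η {ω | g.P4 (g.K4 ω)} := by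
  obtain ⟨k1, k2, k3, k4, k5, k6⟩ : g.a < g.a' ∧ g.a' + 2 ≤ g.b' ∧ g.b' < g.b ∧ g.c < g.c' ∧
    g.c' < g.d' ∧ g.d' < g.d := ⟨g.ha, g.hm, g.hb, g.hc, g.hk, g.hd⟩
  have s1 : g.S1 ⊆ D := fun s hs => hD (by
    simp only [S1, Z4, Bx, Finset.mem_sdiff, mem_Rsq] at *; omega)
  have s2 : g.S2 ⊆ D := fun s hs => hD (by
    simp only [S2, Z4, Bx, Finset.mem_sdiff, mem_Rsq] at *; omega)
  have s3 : g.S3 ⊆ D := fun s hs => hD (by
    simp only [S3, Z4, Bx, Finset.mem_sdiff, mem_Rsq] at *; omega)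
  have s4 : g.S4 ⊆ D := fun s hs => hD (by
    simp only [S4, Z4, Bx, Finset.mem_sdiff, mem_Rsq] at *; omega)
  have e : c0 ^ 4 = c0 * (c0 * (c0 * c0)) := by ring
  rw [e]
  refine g.peel_gen hQ hη h0 h0 h0 (h1.trans (worst_rect hQ hQ1 hη s1 EL_sub _))
    (fun S _ hK => h2.trans (cross_ge hQ hQ1 ET_sub EB_sub (fun _ _ _ => Or.inl trivial) s2
      (good_cf D hη S)))
    (fun S _ hK => h3.trans (cross_ge hQ hQ1 EL_sub ER_sub (fun _ _ _ => Or.inl trivial) s3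
      (good_cf D hη S)))
    (fun S _ hK => h4.trans (cross_ge hQ hQ1 ET_sub EB_sub (fun s hs hsT => ?_) s4
      (good_cf D hη S)))
  obtain ⟨x, hx, l1, l2, l3, l4⟩ := hsT
  obtain ⟨m1, m2, m3, m4⟩ := g.K3_mem hx
  have hx' := hK x hx
  rw [mem_Rsq] at hs
  by_contra hc
  exact hx' ⟨by omega, m2, by omega, by omega⟩

/-- Without closed paths from the sides to the inner box there are no dual arms. -/
theorem no_path {u v : ℤ × ℤ} (hG : g.P4 (g.K4 ω)) (hv : v ∈ g.A4) (hvo : Odd (v.1 + v.2))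
    (hu : u ∈ Rsi g.a' g.b' g.c' g.d')
    (h : ReflTransGen (fun x y => PStep (op ω)ᶜ x y ∧ y ∈ Rsi g.a g.b g.c g.d) v u) : False := by
  obtain ⟨k1, k2, k3, k4, k5, k6⟩ : g.a < g.a' ∧ g.a' + 2 ≤ g.b' ∧ g.b' < g.b ∧ g.c < g.c' ∧
    g.c' < g.d' ∧ g.d' < g.d := ⟨g.ha, g.hm, g.hb, g.hc, g.hk, g.hd⟩
  have key : u ∈ Rsi g.a g.b g.c g.d ∧ (u ∈ g.K4 ω) := by
    clear hu
    induction h with
    | refl => exact ⟨hv.1, v, hv, hvo, ReflTransGen.refl⟩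
    | @tail x y _ hxy ih =>
      obtain ⟨⟨i1, i2, i3, i4⟩, hx⟩ := ih
      refine ⟨hxy.2, Kc_step hx ⟨hxy.1.1, hxy.1.2.1, hxy.1.2.2, Finset.mem_coe.2 ?_⟩⟩
      have hxN := hG x hx
      obtain ⟨⟨h1, h2, -⟩, h3, h4, h5, h6⟩ := hxy
      simp only [Z4, Bx, Finset.mem_sdiff, mem_Rsq]
      refine ⟨⟨by omega, by omega, by omega, by omega⟩, fun hc => hxN ?_⟩
      exact ⟨by omega, by omega, by omega, by omega⟩
  exact hG u key.2 hu

end Geo

/-- The annulus `Bq x (2 r) \ Bq x r`. -/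
def ann (x : ℤ × ℤ) (r : ℤ) (hr : 1 ≤ r) : Geo where
  a := x.1 - 2 * r
  a' := x.1 - r
  b' := x.1 + r
  b := x.1 + 2 * r
  c := x.2 - 2 * r
  c' := x.2 - r
  d' := x.2 + r
  d := x.2 + 2 * r
  ha := by omega
  hm := by omega
  hb := by omega
  hc := by omega
  hk := by omega
  hd := by omega

/-- Crossings of rectangles the long way with everything open outside. -/
def VR (Q : ℝ) : Prop := ∀ k : ℕ, 1 ≤ k → ∃ c : ℝ, 0 < c ∧ ∀ x y n : ℤ, 1 ≤ n →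
  c ≤ Pr Q (Rsq x (x + k * n) y (y + n)) eta1 (CI (Rsq x (x + k * n) y (y + n))
    (EL x (x + k * n) y (y + n)) (ER x (x + k * n) y (y + n))) ∧
  c ≤ Pr Q (Rsq x (x + n) y (y + k * n)) eta1 (CI (Rsq x (x + n) y (y + k * n))
    (ET x (x + n) y (y + k * n)) (EB x (x + n) y (y + k * n)))

/-- **Two-sided bounds for dual arms**, uniformly in the boundary conditions. -/
theorem tsd (hQ : 0 < Q) (hQ1 : Q ≤ 1) (h : VR Q) : ∃ c : ℝ, 0 < c ∧ c < 1 ∧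
    ∀ (x : ℤ × ℤ) (r : ℤ) (D : Finset (ℤ × ℤ)) (η : Cfg), 1 ≤ r → Good η →
      Bq x (2 * r) \ Bq x r ⊆ D → Pr Q D η {ω | ArmDx x r (2 * r) ω} ≤ 1 - c := by
  obtain ⟨c, hc, h⟩ := h 4 (by norm_num)
  have hc1 : 0 < min c 1 := lt_min hc one_pos
  refine ⟨(min c 1) ^ 4 / 2, by positivity, ?_, ?_⟩
  · have := pow_le_one₀ (n := 4) hc1.le (min_le_right c 1)
    linarith
  intro x r D η hr hη hD
  set g := ann x r hr with hg
  have hZ : g.Z4 ⊆ D := by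
    intro s hs
    refine hD ?_
    simp only [Geo.Z4, Geo.Bx, hg, ann, Finset.mem_sdiff, mem_Rsq] at hs
    simp only [Bq, Finset.mem_sdiff, Finset.mem_product, Finset.mem_Ico]
    omega
  have q1 := (h (x.1 - 2 * r) (x.2 + r) r hr).1
  have q2 := (h (x.1 - 2 * r) (x.2 - 2 * r) r hr).2
  have q3 := (h (x.1 - 2 * r) (x.2 - 2 * r) r hr).1
  have q4 := (h (x.1 + r) (x.2 - 2 * r) r hr).2
  have e1 : x.1 - 2 * r + ((4 : ℕ) : ℤ) * r = x.1 + 2 * r := by push_cast; ring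
  have e2 : x.2 - 2 * r + ((4 : ℕ) : ℤ) * r = x.2 + 2 * r := by push_cast; ring
  have e3 : x.2 + r + r = x.2 + 2 * r := by ring
  have e4 : x.1 - 2 * r + r = x.1 - r := by ring
  have e5 : x.2 - 2 * r + r = x.2 - r := by ring
  have e6 : x.1 + r + r = x.1 + 2 * r := by ring
  rw [e1, e3] at q1
  rw [e4, e2] at q2
  rw [e1, e5] at q3
  rw [e6, e2] at q4
  have hm := min_le_left c 1
  have key := g.peel hQ hQ1 hη hZ hc1.le (hm.trans q1) (hm.trans q2) (hm.trans q3) (hm.trans q4)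
  have h1 : Pr Q D η {ω | g.P4 (g.K4 ω)} ≤ Pr Q D η {ω | ArmDx x r (2 * r) ω}ᶜ := by
    refine FKA.Pr_mono hQ fun ω hω harm => ?_
    obtain ⟨u, v, huo, hu, hv, huv⟩ := harm
    have hvR := huv.right_mem
    have hvo : Odd (v.1 + v.2) := by
      have := FKA.rtg_parity (FKA.rtg_of_pconn huv)
      rw [Int.odd_iff] at *
      omega
    rw [FKA.le_nm_iff] at hv
    have hvR' := FKA.nm_le_iff.1 hvR
    rw [FKA.nm_le_iff] at hu
    simp only [Prod.fst_sub, Prod.snd_sub] at hv hvR' hu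
    refine g.no_path (u := u) (v := v) hω ⟨⟨?_, ?_, ?_, ?_⟩, ?_⟩ hvo ⟨?_, ?_, ?_, ?_⟩ ?_
    any_goals (simp only [hg, ann]; omega)
    refine ReflTransGen.mono (fun y z hyz => ⟨hyz.1, ?_⟩) _ _ huv.symm.2
    have := FKA.nm_le_iff.1 (show nm (z - x) ≤ 2 * r from hyz.2)
    simp only [Prod.fst_sub, Prod.snd_sub] at this
    exact ⟨by simp only [hg, ann]; omega, by simp only [hg, ann]; omega,
      by simp only [hg, ann]; omega, by simp only [hg, ann]; omega⟩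
  rw [FKA.Pr_compl hQ] at h1
  have : 0 < (min c 1) ^ 4 := by positivity
  linarith

/-! ### The decay of arms -/

theorem good_dui (h : Good η) : Good (FKA.dui η) := by
  have h1 := (f_sym _ (show (fun v : ℤ × ℤ => (v.1 + 1, v.2 + 1)) ∈ syms by simp [syms])).1 _
    (f_dual.1 η h)
  have h2 := (f_sym _ (show (fun v : ℤ × ℤ => (v.1 + 1, v.2 - 1)) ∈ syms by simp [syms])).1 _ h1
  have e : ((du η ∘ fun v : ℤ × ℤ => (v.1 + 1, v.2 + 1)) ∘ fun v : ℤ × ℤ => (v.1 + 1, v.2 - 1)) =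
      FKA.dui η := by
    funext v
    simp only [Function.comp, du, FKA.dui]
    congr 2
    simp only [Prod.mk.injEq]
    constructor <;> ring
  rw [← e]
  exact h2

/-- A uniform bound for the primal arms at one scale. -/
def TS (Q : ℝ) (L : ℤ) (c : ℝ) : Prop :=
  ∀ (x : ℤ × ℤ) (r : ℤ) (D : Finset (ℤ × ℤ)) (η : Cfg), 1 ≤ r → Good η →
    Bq x (L * r) \ Bq x r ⊆ D → Pr Q D η {ω | ArmPx x r (L * r) ω} ≤ 1 - c

/-- A uniform bound for the dual arms at one scale. -/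
def TSd (Q : ℝ) (L : ℤ) (c : ℝ) : Prop :=
  ∀ (x : ℤ × ℤ) (r : ℤ) (D : Finset (ℤ × ℤ)) (η : Cfg), 1 ≤ r → Good η →
    Bq x (L * r) \ Bq x r ⊆ D → Pr Q D η {ω | ArmDx x r (L * r) ω} ≤ 1 - c

theorem ts_of (hQ : 0 < Q) {L : ℤ} {c : ℝ} (h : TSd Q L c) : TS Q L c := by
  intro x r D η hr hη hD
  have him : (D.image FKA.shi).image FKA.sh = D := by
    rw [Finset.image_image]
    have : (FKA.sh ∘ FKA.shi) = id := by funext v; exact FKA.sh_shi v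
    rw [this, Finset.image_id]
  have h1 := h (FKA.shi x) r (D.image FKA.shi) (FKA.dui η) hr (good_dui hη) (fun v hv => by
    rw [Finset.mem_image]
    refine ⟨FKA.sh v, hD ?_, FKA.shi_sh v⟩
    simp only [Bq, FKA.sh, FKA.shi, Finset.mem_sdiff, Finset.mem_product, Finset.mem_Ico] at *
    omega)
  refine le_trans (le_of_eq ?_) h1
  have h2 := f_dual.2 Q (D.image FKA.shi) (FKA.dui η) ({ω | ArmPx x r (L * r) ω}.indicator 1) hQ
    (good_dui hη)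
  rw [FKA.du_dui] at h2
  have h3 : (D.image FKA.shi).image (fun v : ℤ × ℤ => (v.1 + 1, v.2)) = D := him
  rw [h3] at h2
  unfold Pr
  rw [h2]
  refine FKA.Ex_congr fun S _ => ?_
  set ω := cf (D.image FKA.shi) (FKA.dui η) S
  have h4 : ArmDx (FKA.shi x) r (L * r) ω ↔ ArmPx x r (L * r) (du ω) := by
    rw [FKA.arm_dual, FKA.sh_shi]
  by_cases h5 : ArmPx x r (L * r) (du ω)
  · rw [Set.indicator_of_mem (show du ω ∈ {ω | ArmPx x r (L * r) ω} from h5),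
      Set.indicator_of_mem (show ω ∈ {ω | ArmDx (FKA.shi x) r (L * r) ω} from h4.2 h5)]
    rfl
  · rw [Set.indicator_of_notMem (show du ω ∉ {ω | ArmPx x r (L * r) ω} from h5),
      Set.indicator_of_notMem (show ω ∉ {ω | ArmDx (FKA.shi x) r (L * r) ω} from
        fun h6 => h5 (h4.1 h6))]

/-- The decay of arms from the bound at one scale. -/
theorem arm_dec_of (hQ0 : 0 < Q) {L : ℤ} {c : ℝ} (hL : 2 ≤ L) (hc0 : 0 < c) (hc1 : c < 1)
    (h : TS Q L c) : ∃ α C : ℝ, 0 < α ∧ 0 < C ∧ ArmDec Q α C := by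
  obtain ⟨α, C, hα, hC, hpow⟩ := FKA.pow_decay (a := 1 - c) (by linarith) (by linarith) hL
  refine ⟨α, C, hα, hC, ?_⟩
  intro x r R D η G hr hrR hη hD hG0 hG
  have key : ∀ n : ℕ, L ^ n * r ≤ R → ∃ P : Cfg → ℝ, (∀ ω, 0 ≤ P ω) ∧
      (∀ ω, ArmPx x r R ω → 1 ≤ P ω) ∧ Loc (Bq x (L ^ n * r)) P ∧
      Ex Q D η (fun ω => G ω * P ω) ≤ (1 - c) ^ n * Ex Q D η G := by
    intro n
    induction n with
    | zero =>
      intro _
      exact ⟨fun _ => 1, fun _ => zero_le_one, fun _ _ => le_refl _, fun _ _ _ => rfl, by simp⟩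
    | succ n ih =>
      intro hn
      have hLn : (1 : ℤ) ≤ L ^ n := one_le_pow₀ (by omega)
      have hrn : r ≤ L ^ n * r := by nlinarith
      have e : L ^ (n + 1) * r = L * (L ^ n * r) := by ring
      have hrn' : L ^ n * r ≤ L ^ (n + 1) * r := by rw [e]; nlinarith
      obtain ⟨P, h0, h1, h2, h3⟩ := ih (hrn'.trans hn)
      have hsub : ∀ a b : ℤ, a ≤ b → Bq x a ⊆ Bq x b := by
        intro a b hab v hv
        simp only [Bq, Finset.mem_product, Finset.mem_Ico] at hv ⊢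
        omega
      refine ⟨fun ω => P ω * {ω | ArmPx x (L ^ n * r) (L * (L ^ n * r)) ω}.indicator 1 ω,
        fun ω => mul_nonneg (h0 ω) (FKA.ind_nonneg _ _), ?_, ?_, ?_⟩
      · intro ω hω
        have h4 : ω ∈ {ω | ArmPx x (L ^ n * r) (L * (L ^ n * r)) ω} :=
          FKA.arm_sub hrn (by rw [← e]; exact hrn') (by rw [← e]; exact hn) hω
        show 1 ≤ P ω * {ω | ArmPx x (L ^ n * r) (L * (L ^ n * r)) ω}.indicator 1 ω
        rw [Set.indicator_of_mem h4]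
        simpa using h1 ω hω
      · intro ω ω' h4
        have h5 : P ω = P ω' := h2 ω ω' fun v hv => h4 v (hsub _ _ hrn' hv)
        have h6 := FKA.loc_arm x (L ^ n * r) (L * (L ^ n * r)) ω ω' fun v hv =>
          h4 v (by rw [e]; exact hv)
        simp only [h5, h6]
      · have hAD : Bq x (L * (L ^ n * r)) \ Bq x (L ^ n * r) ⊆ Bq x R \ Bq x r := by
          refine Finset.sdiff_subset_sdiff (hsub _ _ (by rw [← e]; exact hn)) (hsub _ _ hrn)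
        have h7 := FKA.markov_le H259.f_markov f_good hQ0 (hAD.trans hD) hη
          (F := {ω | ArmPx x (L ^ n * r) (L * (L ^ n * r)) ω}.indicator 1)
          (G := fun ω => G ω * P ω) (a := 1 - c) ?_ (fun ω => mul_nonneg (hG0 ω) (h0 ω))
          (fun ω hω => h x (L ^ n * r) _ ω (by omega) hω (Finset.Subset.refl _))
        · simp only [mul_assoc] at h7 ⊢
          refine h7.trans ?_
          rw [pow_succ, mul_comm ((1 - c) ^ n), mul_assoc]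
          exact mul_le_mul_of_nonneg_left h3 (by linarith)
        · refine (hG.mono hAD).mul (h2.ind ?_)
          exact Finset.disjoint_sdiff
  have hGE : 0 ≤ Ex Q D η G := FKA.Ex_nonneg hQ0 fun _ _ => hG0 _
  have h5 : ∀ n : ℕ, L ^ n * r ≤ R →
      Ex Q D η (fun ω => G ω * {ω | ArmPx x r R ω}.indicator 1 ω) ≤
        (1 - c) ^ n * Ex Q D η G := by
    intro n hn
    obtain ⟨P, h0, h1, -, h3⟩ := key n hn
    refine le_trans (FKA.Ex_mono hQ0 fun S _ => ?_) h3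
    refine mul_le_mul_of_nonneg_left ?_ (hG0 _)
    by_cases h4 : cf D η S ∈ {ω | ArmPx x r R ω}
    · rw [Set.indicator_of_mem h4]
      exact h1 _ h4
    · rw [Set.indicator_of_notMem h4]
      exact h0 _
  rcases hGE.eq_or_lt with h6 | h6
  · have := h5 0 (by simpa using hrR)
    rw [← h6, mul_zero] at this ⊢
    exact this
  · have h7 := hpow (Ex Q D η (fun ω => G ω * {ω | ArmPx x r R ω}.indicator 1 ω) / Ex Q D η G)
      r R hr hrR fun n hn => by rw [div_le_iff₀ h6]; exact h5 n hn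
    rwa [div_le_iff₀ h6] at h7

/-- **The decay of arms** for both colours, from crossings of rectangles. -/
theorem arms (hQ : 0 < Q) (hQ1 : Q ≤ 1) (h : VR Q) :
    ∃ α C : ℝ, 0 < α ∧ 0 < C ∧ ArmDec Q α C ∧ ArmDecD Q α C := by
  obtain ⟨c, hc0, hc1, h1⟩ := tsd hQ hQ1 h
  obtain ⟨α, C, hα, hC, h2⟩ := arm_dec_of hQ (L := 2) (by norm_num) hc0 hc1
    (ts_of hQ (L := 2) fun x r D η => h1 x r D η)
  exact ⟨α, C, hα, hC, h2, FKA.armdecD f_dual hQ h2⟩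

end Vale.Agent.P167.H906
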