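import Vale.Agent.P167.H906.Decay
import Vale.Agent.P167.H816.Vr

/-!
# P167: the decay of arms from `H816.VR`, `0 < Q ≤ 1`

* `arm_of_vr`: `ArmDec`, `ArmDecD` (the field `arm` of the kit);
* `armM_of_vr`: masked arms in the intersections and unions of two half planes.
-/

set_option autoImplicit false

namespace Vale.Agent.P167.H906

open Finset
open Relation (ReflTransGen)
open Vale.Agent.P145.FB (PStep PConn)
open Vale.Agent.P167 Vale.Agent.P167.FK Vale.Agent.P167.H262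
open Vale.Agent.P167.FKA (ArmDec ArmDecD)

variable {Q : ℝ}

/-- The first and the last square of a path. -/
theorem ends_rect {F : Set (ℤ × ℤ)} {a b c d : ℤ} {u v : ℤ × ℤ}
    (h : ReflTransGen (PStep (F ∩ ↑(Rsq a b c d))) u v) (huv : u ≠ v) :
    u ∈ Rsi a b c d ∧ v ∈ Rsi a b c d := by
  have key : ∀ u v : ℤ × ℤ, ReflTransGen (PStep (F ∩ ↑(Rsq a b c d))) u v → u ≠ v →
      v ∈ Rsi a b c d := by
    intro u v h huv
    rcases h.cases_tail with h1 | ⟨y, -, h1⟩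
    · exact absurd h1.symm huv
    · obtain ⟨g1, g2, -, g4⟩ := h1
      have g5 := mem_Rsq.1 (Finset.mem_coe.1 g4)
      simp only at g5
      exact ⟨by omega, by omega, by omega, by omega⟩
  exact ⟨key v u (rtg_symm h) huv.symm, key u v h huv⟩

theorem vr_of816 (hQ : 0 < Q) (h : H816.VR Q) : VR Q := by
  intro k hk
  obtain ⟨c, hc, h⟩ := h k
  have hk' : (1 : ℤ) ≤ (k : ℤ) := by exact_mod_cast hk
  refine ⟨c, hc, fun x y n hn => ?_⟩
  obtain ⟨h1, h2, -, -⟩ := h n x y hn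
  have hkn : 1 ≤ (k : ℤ) * n := by nlinarith
  refine ⟨h1.trans (FKA.Pr_mono hQ ?_), h2.trans (FKA.Pr_mono hQ ?_)⟩
  · rintro ω ⟨u, hu, v, hv, huv⟩
    obtain ⟨hu1, hu2⟩ := hu
    obtain ⟨hv1, hv2⟩ := hv
    have hne : u ≠ v := by
      rintro rfl
      omega
    obtain ⟨⟨a1, a2, a3, a4⟩, b1, b2, b3, b4⟩ := ends_rect huv hne
    exact ⟨u, ⟨hu1, ⟨a1, a2, a3, a4⟩, le_antisymm hu2 a1⟩, v,
      ⟨hv1, ⟨b1, b2, b3, b4⟩, le_antisymm b2 hv2⟩, huv⟩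
  · rintro ω ⟨u, hu, v, hv, huv⟩
    obtain ⟨hu1, hu2⟩ := hu
    obtain ⟨hv1, hv2⟩ := hv
    have hne : u ≠ v := by
      rintro rfl
      omega
    obtain ⟨⟨a1, a2, a3, a4⟩, b1, b2, b3, b4⟩ := ends_rect huv hne
    exact ⟨v, ⟨hv1, ⟨b1, b2, b3, b4⟩, le_antisymm b4 hv2⟩, u,
      ⟨hu1, ⟨a1, a2, a3, a4⟩, le_antisymm hu2 a3⟩, rtg_symm huv⟩

/-- **The decay of arms** for both colours. -/
theorem arm_of_vr (hQ : 0 < Q) (hQ1 : Q ≤ 1) (h : H816.VR Q) :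
    ∃ α C : ℝ, 0 < α ∧ 0 < C ∧ ArmDec Q α C ∧ ArmDecD Q α C :=
  arms hQ hQ1 (vr_of816 hQ h)

/-- **The decay of masked arms in shapes** for both colours. -/
theorem armM_of_vr (hQ : 0 < Q) (hQ1 : Q ≤ 1) (h : H816.VR Q) :
    ∃ α C : ℝ, 0 < α ∧ 0 < C ∧ ArmDecM Q α C ∧ ArmDecMD Q α C :=
  armsM hQ hQ1 (vr_of816 hQ h)

end Vale.Agent.P167.H906
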