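import Vale.Agent.P167.H906.Shapes

/-!
# P167: decay of the arms in shapes, `0 < Q ≤ 1`

* `decay_gen`: from one scale to all scales;
* `ArmDecM`, `ArmDecMD`: the decay of the open and of the dual paths in `U`, for all configurations
  outside of `U` and with a factor which does not depend on `U`;
* `armsM`: both hold for the intersections and unions of two half planes;
* `armsS`: the same for the usual arms, the frozen squares of the annulus being closed (open).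
-/

set_option autoImplicit false

namespace Vale.Agent.P167.H906

open Finset
open Relation (ReflTransGen)
open Vale.Agent.P145.FB (PStep PConn)
open Vale.Agent.P167 Vale.Agent.P167.FK Vale.Agent.P167.H262
open Vale.Agent.P167.H635 (HP Shp Ann)
open Vale.Agent.P167.FKA (Loc Ind shi dui)

variable {Q : ℝ} {W Z D U : Finset (ℤ × ℤ)} {η ω : Cfg} {x : ℤ × ℤ} {r R : ℤ}

/-! ### Duality -/

theorem armPM_du : ArmPM U x r R (du ω) ↔ ArmDM (U.image shi) (shi x) r R ω := by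
  have hsx : FKA.sh (shi x) = x := FKA.sh_shi x
  constructor
  · rintro ⟨u, v, h1, h2, h3, h4⟩
    refine ⟨shi u, shi v, ?_, ?_, ?_, ?_⟩
    · rw [Int.even_iff] at h1
      rw [Int.odd_iff]
      simp only [shi]
      omega
    · rw [FKA.nm_shi, hsx]; exact h2
    · rw [FKA.nm_shi, hsx]; exact h3
    · refine rtg_map (φ := shi) (fun y z hyz => FKA.step_shi
        (F' := (op ω)ᶜ ∩ ↑(U.image shi)) (fun w hw => ?_) hyz) h4
      exact ⟨FKA.op_du' hw.1,
        Finset.mem_coe.2 (Finset.mem_image_of_mem _ (Finset.mem_coe.1 hw.2))⟩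
  · rintro ⟨u, v, h1, h2, h3, h4⟩
    have hx : ∀ w : ℤ × ℤ, nm (FKA.sh w - x) = nm (w - shi x) := by
      intro w
      rw [← hsx, FKA.nm_sh, hsx]
    refine ⟨FKA.sh u, FKA.sh v, ?_, by rw [hx]; exact h2, by rw [hx]; exact h3, ?_⟩
    · rw [Int.odd_iff] at h1
      rw [Int.even_iff]
      simp only [FKA.sh]
      omega
    · refine rtg_map (φ := FKA.sh) (fun y z hyz => FKA.step_sh
        (F' := op (du ω) ∩ ↑U) (fun w hw => ?_) hyz) h4
      have h5 := FKA.op_du hw.1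
      refine ⟨h5, ?_⟩
      obtain ⟨t, ht, rfl⟩ := Finset.mem_image.1 (Finset.mem_coe.1 hw.2)
      rw [FKA.sh_shi]
      exact Finset.mem_coe.2 ht

theorem HP.unshift {H : ℤ × ℤ → Prop} (h : HP H) : HP fun v => H (FKA.sh v) := by
  obtain ⟨c, h | h | h | h⟩ := h
  · exact ⟨c - 1, Or.inl fun v => (h _).trans (by simp only [FKA.sh]; omega)⟩
  · exact ⟨c - 1, Or.inr (Or.inl fun v => (h _).trans (by simp only [FKA.sh]; omega))⟩
  · exact ⟨c, Or.inr (Or.inr (Or.inl fun v => h _))⟩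
  · exact ⟨c, Or.inr (Or.inr (Or.inr fun v => h _))⟩

theorem mem_bq_shi {v : ℤ × ℤ} : v ∈ Bq (shi x) R \ Bq (shi x) r ↔ FKA.sh v ∈ Bq x R \ Bq x r := by
  simp only [Bq, FKA.sh, shi, Finset.mem_sdiff, Finset.mem_product, Finset.mem_Ico]
  omega

theorem mem_im_shi {v : ℤ × ℤ} : v ∈ U.image shi ↔ FKA.sh v ∈ U := by
  rw [Finset.mem_image]
  constructor
  · rintro ⟨w, hw, rfl⟩
    rw [FKA.sh_shi]
    exact hw
  · exact fun h => ⟨FKA.sh v, h, FKA.shi_sh v⟩

theorem Shp_shi (h : Shp U x r R) : Shp (U.image shi) (shi x) r R := by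
  obtain ⟨H1, H2, h1, h2, h⟩ := h
  refine ⟨_, _, HP.unshift h1, HP.unshift h2, ?_⟩
  rcases h with h | h
  · exact Or.inl fun v hv => by rw [mem_im_shi]; exact h _ (mem_bq_shi.1 hv)
  · exact Or.inr fun v hv => by rw [mem_im_shi]; exact h _ (mem_bq_shi.1 hv)

/-- **The bound at one scale**, open paths. -/
theorem tsmp (hQ : 0 < Q) {c : ℝ} (h : ∀ (x : ℤ × ℤ) (r : ℤ) (D U : Finset (ℤ × ℤ)) (η : Cfg),
      1 ≤ r → Good η → U ⊆ D → U ⊆ Bq x (2 * r) \ Bq x r → Shp U x r (2 * r) →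
      Pr Q D η {ω | ArmDM U x r (2 * r) ω} ≤ 1 - c) (x : ℤ × ℤ) (r : ℤ) (D U : Finset (ℤ × ℤ))
    (η : Cfg) (hr : 1 ≤ r) (hη : Good η) (hUD : U ⊆ D) (hU : U ⊆ Bq x (2 * r) \ Bq x r)
    (hS : Shp U x r (2 * r)) : Pr Q D η {ω | ArmPM U x r (2 * r) ω} ≤ 1 - c := by
  have him : (D.image shi).image (fun v : ℤ × ℤ => (v.1 + 1, v.2)) = D := by
    have h1 : (D.image shi).image FKA.sh = D := by
      rw [Finset.image_image]
      have : (FKA.sh ∘ shi) = id := by funext v; exact FKA.sh_shi v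
      rw [this, Finset.image_id]
    exact h1
  have h1 := h (shi x) r (D.image shi) (U.image shi) (dui η) hr (good_dui hη)
    (Finset.image_subset_image hUD) (fun v hv => mem_bq_shi.2 (hU (mem_im_shi.1 hv))) (Shp_shi hS)
  refine le_trans (le_of_eq ?_) h1
  have h2 := f_dual.2 Q (D.image shi) (dui η) ({ω | ArmPM U x r (2 * r) ω}.indicator 1) hQ
    (good_dui hη)
  rw [FKA.du_dui, him] at h2
  unfold Pr
  rw [h2]
  refine FKA.Ex_congr fun S _ => ?_
  set ω := cf (D.image shi) (dui η) S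
  by_cases h5 : ArmPM U x r (2 * r) (du ω)
  · rw [Set.indicator_of_mem (show du ω ∈ {ω | ArmPM U x r (2 * r) ω} from h5),
      Set.indicator_of_mem (show ω ∈ {ω | ArmDM (U.image shi) (shi x) r (2 * r) ω} from
        armPM_du.1 h5)]
    rfl
  · rw [Set.indicator_of_notMem (show du ω ∉ {ω | ArmPM U x r (2 * r) ω} from h5),
      Set.indicator_of_notMem (show ω ∉ {ω | ArmDM (U.image shi) (shi x) r (2 * r) ω} from
        fun h6 => h5 (armPM_du.2 h6))]

/-! ### From one scale to all scales -/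

theorem decay_gen {Arm : Finset (ℤ × ℤ) → ℤ × ℤ → ℤ → ℤ → Cfg → Prop}
    (hsub : ∀ U x r R r' R' ω, r ≤ r' → r' ≤ R' → R' ≤ R → Arm U x r R ω →
      Arm (U ∩ (Bq x R' \ Bq x r')) x r' R' ω)
    (hloc : ∀ U x r R ω ω', (∀ v ∈ U, ω v = ω' v) → Arm U x r R ω → Arm U x r R ω')
    (hQ0 : 0 < Q) {L : ℤ} {c α C : ℝ} (hL : 2 ≤ L) (hc1 : c < 1)
    (hpow : ∀ (p : ℝ) (r R : ℤ), 1 ≤ r → r ≤ R →
      (∀ n : ℕ, L ^ n * r ≤ R → p ≤ (1 - c) ^ n) → p ≤ C * ((r : ℝ) / R) ^ α)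
    (h : ∀ (x : ℤ × ℤ) (r : ℤ) (D U : Finset (ℤ × ℤ)) (η : Cfg), 1 ≤ r → Good η → U ⊆ D →
      U ⊆ Bq x (L * r) \ Bq x r → Shp U x r (L * r) →
      Pr Q D η {ω | Arm U x r (L * r) ω} ≤ 1 - c)
    (x : ℤ × ℤ) (r R : ℤ) (D U : Finset (ℤ × ℤ)) (η : Cfg) (G : Cfg → ℝ) (hr : 1 ≤ r)
    (hrR : r ≤ R) (hη : Good η) (hUD : U ⊆ D) (_ : U ⊆ Bq x R \ Bq x r) (hS : Shp U x r R)
    (hG0 : ∀ ω, 0 ≤ G ω) (hG : Ind U G) :
    Ex Q D η (fun ω => G ω * {ω | Arm U x r R ω}.indicator 1 ω) ≤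
      C * ((r : ℝ) / R) ^ α * Ex Q D η G := by
  have key : ∀ n : ℕ, L ^ n * r ≤ R → ∃ P : Cfg → ℝ, (∀ ω, 0 ≤ P ω) ∧
      (∀ ω, Arm U x r R ω → 1 ≤ P ω) ∧ Loc (Bq x (L ^ n * r)) P ∧
      Ex Q D η (fun ω => G ω * P ω) ≤ (1 - c) ^ n * Ex Q D η G := by
    intro n
    induction n with
    | zero =>
      intro _
      exact ⟨fun _ => 1, fun _ => zero_le_one, fun _ _ => le_refl _, fun _ _ _ => rfl, by simp⟩
    | succ n ih =>
      intro hn
      have hLn : (1 : ℤ) ≤ L ^ n := one_le_pow₀ (by omega)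
      have hrn : r ≤ L ^ n * r := by nlinarith
      have e : L ^ (n + 1) * r = L * (L ^ n * r) := by ring
      have hrn' : L ^ n * r ≤ L ^ (n + 1) * r := by rw [e]; nlinarith
      obtain ⟨P, h0, h1, h2, h3⟩ := ih (hrn'.trans hn)
      have hsubB : ∀ a b : ℤ, a ≤ b → Bq x a ⊆ Bq x b := by
        intro a b hab v hv
        simp only [Bq, Finset.mem_product, Finset.mem_Ico] at hv ⊢
        omega
      set ρ : ℤ := L ^ n * r with hρ
      set V : Finset (ℤ × ℤ) := U ∩ (Bq x (L * ρ) \ Bq x ρ) with hV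
      have hVU : V ⊆ U := Finset.inter_subset_left
      have hVB : V ⊆ Bq x (L * ρ) \ Bq x ρ := Finset.inter_subset_right
      have hLρ : L * ρ ≤ R := by rw [← e]; exact hn
      have hρL : ρ ≤ L * ρ := by rw [← e]; exact hrn'
      have hVS : Shp V x ρ (L * ρ) := (H635.Shp.mono hS hrn hLρ).congr fun v hv => by
        rw [hV, Finset.mem_inter]
        exact ⟨fun k => ⟨k, hv⟩, fun k => k.1⟩
      refine ⟨fun ω => P ω * {ω | Arm V x ρ (L * ρ) ω}.indicator 1 ω,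
        fun ω => mul_nonneg (h0 ω) (FKA.ind_nonneg _ _), ?_, ?_, ?_⟩
      · intro ω hω
        have h4 : ω ∈ {ω | Arm V x ρ (L * ρ) ω} := hsub U x r R ρ (L * ρ) ω hrn hρL hLρ hω
        show 1 ≤ P ω * {ω | Arm V x ρ (L * ρ) ω}.indicator 1 ω
        rw [Set.indicator_of_mem h4]
        simpa using h1 ω hω
      · intro ω ω' h4
        rw [e] at h4
        have h5 : P ω = P ω' := h2 ω ω' fun v hv => h4 v (hsubB _ _ hρL hv)
        have hVb : ∀ v ∈ V, ω v = ω' v := fun v hv => h4 v (Finset.mem_sdiff.1 (hVB hv)).1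
        have h6 : {ω | Arm V x ρ (L * ρ) ω}.indicator (1 : Cfg → ℝ) ω =
            {ω | Arm V x ρ (L * ρ) ω}.indicator 1 ω' := by
          by_cases h7 : Arm V x ρ (L * ρ) ω
          · rw [Set.indicator_of_mem (show ω ∈ {ω | Arm V x ρ (L * ρ) ω} from h7),
              Set.indicator_of_mem (show ω' ∈ {ω | Arm V x ρ (L * ρ) ω} from
                hloc _ _ _ _ _ _ hVb h7)]
            rfl
          · rw [Set.indicator_of_notMem (show ω ∉ {ω | Arm V x ρ (L * ρ) ω} from h7),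
              Set.indicator_of_notMem (show ω' ∉ {ω | Arm V x ρ (L * ρ) ω} from fun h8 =>
                h7 (hloc _ _ _ _ _ _ (fun v hv => (hVb v hv).symm) h8))]
        simp only [h5, h6]
      · have h7 := FKA.markov_le H259.f_markov f_good hQ0 (hVU.trans hUD) hη
          (F := {ω | Arm V x ρ (L * ρ) ω}.indicator 1)
          (G := fun ω => G ω * P ω) (a := 1 - c) ?_ (fun ω => mul_nonneg (hG0 ω) (h0 ω))
          (fun ω hω => h x ρ V V ω (by omega) hω (Finset.Subset.refl _) hVB hVS)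
        · simp only [mul_assoc] at h7 ⊢
          refine h7.trans ?_
          rw [pow_succ, mul_comm ((1 - c) ^ n), mul_assoc]
          exact mul_le_mul_of_nonneg_left h3 (by linarith)
        · refine (hG.mono hVU).mul (h2.ind ?_)
          exact Finset.disjoint_sdiff.mono_right hVB
  have hGE : 0 ≤ Ex Q D η G := FKA.Ex_nonneg hQ0 fun _ _ => hG0 _
  have h5 : ∀ n : ℕ, L ^ n * r ≤ R →
      Ex Q D η (fun ω => G ω * {ω | Arm U x r R ω}.indicator 1 ω) ≤
        (1 - c) ^ n * Ex Q D η G := by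
    intro n hn
    obtain ⟨P, h0, h1, -, h3⟩ := key n hn
    refine le_trans (FKA.Ex_mono hQ0 fun S _ => ?_) h3
    refine mul_le_mul_of_nonneg_left ?_ (hG0 _)
    by_cases h4 : cf D η S ∈ {ω | Arm U x r R ω}
    · rw [Set.indicator_of_mem h4]
      exact h1 _ h4
    · rw [Set.indicator_of_notMem h4]
      exact h0 _
  rcases hGE.eq_or_lt with h6 | h6
  · have := h5 0 (by simpa using hrR)
    rw [← h6, mul_zero] at this ⊢
    exact this
  · have h7 := hpow (Ex Q D η (fun ω => G ω * {ω | Arm U x r R ω}.indicator 1 ω) / Ex Q D η G)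
      r R hr hrR fun n hn => by rw [div_le_iff₀ h6]; exact h5 n hn
    rwa [div_le_iff₀ h6] at h7

/-- **Decay of the open paths** of squares of `U`, for all configurations outside of `U`. -/
def ArmDecM (Q α C : ℝ) : Prop := ∀ (x : ℤ × ℤ) (r R : ℤ) (D U : Finset (ℤ × ℤ)) (η : Cfg)
  (G : Cfg → ℝ), 1 ≤ r → r ≤ R → Good η → U ⊆ D → U ⊆ Bq x R \ Bq x r → Shp U x r R →
  (∀ ω, 0 ≤ G ω) → Ind U G →
  Ex Q D η (fun ω => G ω * {ω | ArmPM U x r R ω}.indicator 1 ω) ≤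
    C * ((r : ℝ) / R) ^ α * Ex Q D η G

/-- **Decay of the dual paths** of squares of `U`, for all configurations outside of `U`. -/
def ArmDecMD (Q α C : ℝ) : Prop := ∀ (x : ℤ × ℤ) (r R : ℤ) (D U : Finset (ℤ × ℤ)) (η : Cfg)
  (G : Cfg → ℝ), 1 ≤ r → r ≤ R → Good η → U ⊆ D → U ⊆ Bq x R \ Bq x r → Shp U x r R →
  (∀ ω, 0 ≤ G ω) → Ind U G →
  Ex Q D η (fun ω => G ω * {ω | ArmDM U x r R ω}.indicator 1 ω) ≤
    C * ((r : ℝ) / R) ^ α * Ex Q D η G

/-- **The decay of arms in shapes**, from crossings of rectangles. -/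
theorem armsM (hQ : 0 < Q) (hQ1 : Q ≤ 1) (h : VR Q) :
    ∃ α C : ℝ, 0 < α ∧ 0 < C ∧ ArmDecM Q α C ∧ ArmDecMD Q α C := by
  obtain ⟨c, hc0, hc1, h1⟩ := tsmd hQ hQ1 h
  obtain ⟨α, C, hα, hC, hpow⟩ := FKA.pow_decay (a := 1 - c) (by linarith) (by linarith)
    (le_refl (2 : ℤ))
  refine ⟨α, C, hα, hC, ?_, ?_⟩
  · exact decay_gen (Arm := ArmPM) (fun U x r R r' R' ω a b d e => e.sub a b d)
      (fun U x r R ω ω' a b => b.loc a) hQ (le_refl 2) hc1 hpow (tsmp hQ h1)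
  · exact decay_gen (Arm := ArmDM) (fun U x r R r' R' ω a b d e => e.sub a b d)
      (fun U x r R ω ω' a b => b.loc a) hQ (le_refl 2) hc1 hpow h1

/-! ### Usual arms -/

/-- Arms when the frozen squares of the annulus are closed. -/
theorem armsS {α C : ℝ} (hQ : 0 < Q) (h : ArmDecM Q α C) {G : Cfg → ℝ} (hr : 1 ≤ r) (hrR : r ≤ R)
    (hη : Good η) (hcl : ∀ v ∈ Bq x R \ Bq x r, v ∉ D → η v = false) (hS : Shp D x r R)
    (hG0 : ∀ ω, 0 ≤ G ω) (hG : Ind (D ∩ (Bq x R \ Bq x r)) G) :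
    Ex Q D η (fun ω => G ω * {ω | ArmPx x r R ω}.indicator 1 ω) ≤
      C * ((r : ℝ) / R) ^ α * Ex Q D η G := by
  refine le_trans (FKA.Ex_mono hQ fun S _ => ?_) (h x r R D (D ∩ (Bq x R \ Bq x r)) η G hr hrR hη
    Finset.inter_subset_left Finset.inter_subset_right (hS.congr fun v hv => ?_) hG0 hG)
  · refine mul_le_mul_of_nonneg_left ?_ (hG0 _)
    by_cases h4 : ArmPx x r R (cf D η S)
    · have h5 : cf D η S ∈ {ω | ArmPM (D ∩ (Bq x R \ Bq x r)) x r R ω} :=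
        armPM_of hrR (fun v hv hvD => by rw [FKA.cf_out hvD]; exact hcl v hv hvD) h4
      rw [Set.indicator_of_mem h5, Set.indicator_of_mem (show cf D η S ∈ {ω | ArmPx x r R ω}
        from h4)]
    · rw [Set.indicator_of_notMem (show cf D η S ∉ {ω | ArmPx x r R ω} from h4)]
      exact FKA.ind_nonneg _ _
  · rw [Finset.mem_inter]
    exact ⟨fun k => ⟨k, hv⟩, fun k => k.1⟩

/-- Dual arms when the frozen squares of the annulus are open. -/
theorem armsSD {α C : ℝ} (hQ : 0 < Q) (h : ArmDecMD Q α C) {G : Cfg → ℝ} (hr : 1 ≤ r)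
    (hrR : r ≤ R) (hη : Good η) (hcl : ∀ v ∈ Bq x R \ Bq x r, v ∉ D → η v = true)
    (hS : Shp D x r R) (hG0 : ∀ ω, 0 ≤ G ω) (hG : Ind (D ∩ (Bq x R \ Bq x r)) G) :
    Ex Q D η (fun ω => G ω * {ω | ArmDx x r R ω}.indicator 1 ω) ≤
      C * ((r : ℝ) / R) ^ α * Ex Q D η G := by
  refine le_trans (FKA.Ex_mono hQ fun S _ => ?_) (h x r R D (D ∩ (Bq x R \ Bq x r)) η G hr hrR hη
    Finset.inter_subset_left Finset.inter_subset_right (hS.congr fun v hv => ?_) hG0 hG)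
  · refine mul_le_mul_of_nonneg_left ?_ (hG0 _)
    by_cases h4 : ArmDx x r R (cf D η S)
    · have h5 : cf D η S ∈ {ω | ArmDM (D ∩ (Bq x R \ Bq x r)) x r R ω} :=
        armDM_of hrR (fun v hv hvD => by rw [FKA.cf_out hvD]; exact hcl v hv hvD) h4
      rw [Set.indicator_of_mem h5, Set.indicator_of_mem (show cf D η S ∈ {ω | ArmDx x r R ω}
        from h4)]
    · rw [Set.indicator_of_notMem (show cf D η S ∉ {ω | ArmDx x r R ω} from h4)]
      exact FKA.ind_nonneg _ _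
  · rw [Finset.mem_inter]
    exact ⟨fun k => ⟨k, hv⟩, fun k => k.1⟩

end Vale.Agent.P167.H906
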