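import Vale.Agent.P167.H262.WstFK
import Vale.Agent.P167.H816.Stop

/-!
# P167: explored clusters in a rectangle and the squares around them

`Kc A Z ω`: the odd sites joined to `A` by closed squares of `Z`; `Tc K`: the squares with a corner in
`K`. `sigma`: the even sites around `Kc` and on the boundary are joined by the squares which touch
`Kc` and by the squares around the rectangle.
-/

set_option autoImplicit false

namespace Vale.Agent.P167.H906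

open Relation (ReflTransGen)
open Vale.Agent.P145.FB (PStep PConn)
open Vale.Agent.P167 Vale.Agent.P167.FK Vale.Agent.P167.H262

/-! ### Rectangles -/

/-- Diagonal neighbours. -/
theorem mk_step {F : Set (ℤ × ℤ)} {u v : ℤ × ℤ} (h1 : v.1 = u.1 + 1 ∨ v.1 = u.1 - 1)
    (h2 : v.2 = u.2 + 1 ∨ v.2 = u.2 - 1) (h : (min u.1 v.1, min u.2 v.2) ∈ F) : PStep F u v :=
  ⟨h1, h2, h⟩

theorem rtg_symm {F : Set (ℤ × ℤ)} {u v : ℤ × ℤ} (h : ReflTransGen (PStep F) u v) :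
    ReflTransGen (PStep F) v u := by
  induction h with
  | refl => exact ReflTransGen.refl
  | tail _ h1 ih => exact ReflTransGen.head h1.symm ih

theorem rtg_mono {F G : Set (ℤ × ℤ)} {u v : ℤ × ℤ} (hFG : F ⊆ G)
    (h : ReflTransGen (PStep F) u v) : ReflTransGen (PStep G) u v :=
  ReflTransGen.mono (fun _ _ k => ⟨k.1, k.2.1, hFG k.2.2⟩) u v h

theorem rect_col {a b c d : ℤ} (hcd : c < d) {F : Set (ℤ × ℤ)}
    (hF : ↑(Rsq a b c d) ⊆ F) (n : ℕ) : ∀ u : ℤ × ℤ, u ∈ Rsi a b c d → u.1 = a + n →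
      ∃ y : ℤ, c ≤ y ∧ y ≤ d ∧ ReflTransGen (PStep F) u (a, y) := by
  induction n with
  | zero =>
    intro u hu h
    obtain ⟨u1, u2⟩ := u
    obtain ⟨-, -, h3, h4⟩ := hu
    simp only at h h3 h4
    push_cast at h
    rw [add_zero] at h
    subst h
    exact ⟨u2, h3, h4, ReflTransGen.refl⟩
  | succ n ih =>
    intro u hu h
    obtain ⟨h1, h2, h3, h4⟩ := hu
    push_cast at h
    by_cases h5 : c < u.2
    · obtain ⟨y, g1, g2, g3⟩ := ih (u.1 - 1, u.2 - 1)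
        ⟨by simp only; omega, by simp only; omega, by simp only; omega, by simp only; omega⟩
        (by simp only; omega)
      refine ⟨y, g1, g2, ReflTransGen.head (mk_step (Or.inr rfl) (Or.inr rfl) (hF ?_)) g3⟩
      rw [Finset.mem_coe, mem_Rsq]
      simp only
      omega
    · obtain ⟨y, g1, g2, g3⟩ := ih (u.1 - 1, u.2 + 1)
        ⟨by simp only; omega, by simp only; omega, by simp only; omega, by simp only; omega⟩
        (by simp only; omega)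
      refine ⟨y, g1, g2, ReflTransGen.head (mk_step (Or.inr rfl) (Or.inl rfl) (hF ?_)) g3⟩
      rw [Finset.mem_coe, mem_Rsq]
      simp only
      omega

theorem rect_row {a b c d : ℤ} (hab : a < b) {F : Set (ℤ × ℤ)}
    (hF : ↑(Rsq a b c d) ⊆ F) (n : ℕ) : ∀ y : ℤ, (y = c + 2 * n ∨ y = c + 1 + 2 * n) → y ≤ d →
      ∃ y' : ℤ, (y' = c ∨ y' = c + 1) ∧ ReflTransGen (PStep F) (a, y) (a, y') := by
  induction n with
  | zero =>
    intro y hy _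
    push_cast at hy
    exact ⟨y, by omega, ReflTransGen.refl⟩
  | succ n ih =>
    intro y hy hyd
    push_cast at hy
    obtain ⟨y', g1, g2⟩ := ih (y - 2) (by omega) (by omega)
    have e1 : PStep F (a, y) (a + 1, y - 1) := by
      refine mk_step (Or.inl rfl) (Or.inr rfl) (hF ?_)
      rw [Finset.mem_coe, mem_Rsq]
      simp only
      omega
    have e2 : PStep F (a + 1, y - 1) (a, y - 2) := by
      refine mk_step (Or.inr (by simp)) (Or.inr (by simp only; omega)) (hF ?_)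
      rw [Finset.mem_coe, mem_Rsq]
      simp only
      omega
    exact ⟨y', g1, ReflTransGen.head e1 (ReflTransGen.head e2 g2)⟩

theorem rtg_par {F : Set (ℤ × ℤ)} {u v : ℤ × ℤ} (h : ReflTransGen (PStep F) u v) :
    (u.1 + u.2) % 2 = (v.1 + v.2) % 2 := by
  induction h with
  | refl => rfl
  | @tail x y _ hxy ih =>
    obtain ⟨h1, h2, -⟩ := hxy
    omega

/-- The sites of a rectangle with the same parity are joined. -/
theorem rect_conn {a b c d : ℤ} (hab : a < b) (hcd : c < d) {F : Set (ℤ × ℤ)}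
    (hF : ↑(Rsq a b c d) ⊆ F) {u v : ℤ × ℤ} (hu : u ∈ Rsi a b c d) (hv : v ∈ Rsi a b c d)
    (h : (u.1 + u.2) % 2 = (v.1 + v.2) % 2) : ReflTransGen (PStep F) u v := by
  have key : ∀ u : ℤ × ℤ, u ∈ Rsi a b c d →
      ∃ y' : ℤ, (y' = c ∨ y' = c + 1) ∧ ReflTransGen (PStep F) u (a, y') := by
    intro u hu
    obtain ⟨y, g1, g2, g3⟩ := rect_col hcd hF (u.1 - a).toNat u hu
      (by have := hu.1; rw [Int.toNat_of_nonneg (by omega)]; omega)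
    obtain ⟨y', k1, k2⟩ := rect_row hab hF ((y - c) / 2).toNat y
      (by rw [Int.toNat_of_nonneg (by omega)]; omega) g2
    exact ⟨y', k1, g3.trans k2⟩
  obtain ⟨y, g1, g2⟩ := key u hu
  obtain ⟨y', k1, k2⟩ := key v hv
  have e1 := rtg_par g2
  have e2 := rtg_par k2
  simp only at e1 e2
  have e3 : y = y' := by omega
  subst e3
  exact g2.trans (rtg_symm k2)

/-! ### The frame -/

/-- The sites of the frame between `[a, b] × [c, d]` and `[a1, b1] × [c1, d1]`. -/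
def Fr (a b c d a1 b1 c1 d1 : ℤ) (z : ℤ × ℤ) : Prop :=
  z ∈ Rsi a1 b1 c1 d1 ∧ ((a1 < a ∧ z.1 ≤ a) ∨ (b < b1 ∧ b ≤ z.1) ∨ (c1 < c ∧ z.2 ≤ c) ∨
    (d < d1 ∧ d ≤ z.2))

theorem two_rect {F : Set (ℤ × ℤ)} {a b c d a' b' c' d' : ℤ} (hab : a < b) (hcd : c < d)
    (hab' : a' < b') (hcd' : c' < d') (hF : ↑(Rsq a b c d) ⊆ F) (hF' : ↑(Rsq a' b' c' d') ⊆ F)
    (hx : max a a' < min b b') (hy : max c c' < min d d') {u v : ℤ × ℤ} (hu : u ∈ Rsi a b c d)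
    (hv : v ∈ Rsi a' b' c' d') (h : (u.1 + u.2) % 2 = (v.1 + v.2) % 2) :
    ReflTransGen (PStep F) u v := by
  obtain ⟨w, g1, g2, g3⟩ : ∃ w : ℤ × ℤ, w ∈ Rsi a b c d ∧ w ∈ Rsi a' b' c' d' ∧
      (u.1 + u.2) % 2 = (w.1 + w.2) % 2 := by
    by_cases h1 : (u.1 + u.2) % 2 = (max a a' + max c c') % 2
    · refine ⟨(max a a', max c c'), ⟨?_, ?_, ?_, ?_⟩, ⟨?_, ?_, ?_, ?_⟩, h1⟩ <;> simp only <;> omega
    · refine ⟨(max a a' + 1, max c c'), ⟨?_, ?_, ?_, ?_⟩, ⟨?_, ?_, ?_, ?_⟩, ?_⟩ <;> simp only <;>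
        omega
  exact (rect_conn hab hcd hF hu g1 g3).trans (rect_conn hab' hcd' hF' g2 hv (g3.symm.trans h))

/-- The strips around the rectangle: left, right, bottom, top. -/
theorem frame_sub {a b c d a1 b1 c1 d1 : ℤ} (ha : a1 ≤ a)
    (hb : b ≤ b1) (hc : c1 ≤ c) (hd : d ≤ d1) (hab : a < b) (hcd : c < d) {F : Set (ℤ × ℤ)}
    (hF : ∀ s ∈ Rsq a1 b1 c1 d1, s ∉ Rsq a b c d → s ∈ F) :
    (↑(Rsq a1 a c1 d1) ⊆ F ∧ ↑(Rsq b b1 c1 d1) ⊆ F) ∧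
      (↑(Rsq a1 b1 c1 c) ⊆ F ∧ ↑(Rsq a1 b1 d d1) ⊆ F) := by
  refine ⟨⟨fun s hs => ?_, fun s hs => ?_⟩, fun s hs => ?_, fun s hs => ?_⟩ <;>
    rw [Finset.mem_coe, mem_Rsq] at hs <;>
    exact hF s (by rw [mem_Rsq]; omega) (by rw [mem_Rsq]; omega)

/-- A site of given parity next to a given one. -/
theorem ex_par (x y p : ℤ) : ∃ w : ℤ × ℤ, w.2 = y ∧ (w.1 = x ∨ w.1 = x + 1) ∧
    p % 2 = (w.1 + w.2) % 2 := by
  by_cases h1 : p % 2 = (x + y) % 2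
  · exact ⟨(x, y), rfl, Or.inl rfl, h1⟩
  · exact ⟨(x + 1, y), rfl, Or.inr rfl, by simp only; omega⟩

theorem ex_par' (x y p : ℤ) : ∃ w : ℤ × ℤ, w.1 = x ∧ (w.2 = y ∨ w.2 = y + 1) ∧
    p % 2 = (w.1 + w.2) % 2 := by
  by_cases h1 : p % 2 = (x + y) % 2
  · exact ⟨(x, y), rfl, Or.inl rfl, h1⟩
  · exact ⟨(x, y + 1), rfl, Or.inr rfl, by simp only; omega⟩

/-- Left and right, through the bottom or the top. -/
theorem frame_lr {a b c d a1 b1 c1 d1 : ℤ} (hab : a < b) (hcd : c < d) (hc : c1 ≤ c)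
    (hd : d ≤ d1) (ha : a1 < a) (hb : b < b1) (hx : c1 < c ∨ d < d1) {F : Set (ℤ × ℤ)}
    (f1 : ↑(Rsq a1 a c1 d1) ⊆ F) (f2 : ↑(Rsq b b1 c1 d1) ⊆ F) (f3 : ↑(Rsq a1 b1 c1 c) ⊆ F)
    (f4 : ↑(Rsq a1 b1 d d1) ⊆ F) {u v : ℤ × ℤ} (hu : u ∈ Rsi a1 a c1 d1)
    (hv : v ∈ Rsi b b1 c1 d1) (h : (u.1 + u.2) % 2 = (v.1 + v.2) % 2) :
    ReflTransGen (PStep F) u v := by
  rcases hx with h6 | h6
  · obtain ⟨w, w1, w2, w3⟩ := ex_par a c1 (u.1 + u.2)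
    have hw : w ∈ Rsi a1 b1 c1 c := ⟨by omega, by omega, by omega, by omega⟩
    exact (two_rect ha (by omega) (by omega) h6 f1 f3 (by omega) (by omega) hu hw w3).trans
      (rtg_symm (two_rect hb (by omega) (by omega) h6 f2 f3 (by omega) (by omega) hv hw
        (h.symm.trans w3)))
  · obtain ⟨w, w1, w2, w3⟩ := ex_par a d1 (u.1 + u.2)
    have hw : w ∈ Rsi a1 b1 d d1 := ⟨by omega, by omega, by omega, by omega⟩
    exact (two_rect ha (by omega) (by omega) h6 f1 f4 (by omega) (by omega) hu hw w3).trans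
      (rtg_symm (two_rect hb (by omega) (by omega) h6 f2 f4 (by omega) (by omega) hv hw
        (h.symm.trans w3)))

/-- Bottom and top, through the left or the right side. -/
theorem frame_bt {a b c d a1 b1 c1 d1 : ℤ} (hab : a < b) (hcd : c < d) (ha : a1 ≤ a)
    (hb : b ≤ b1) (hc : c1 < c) (hd : d < d1) (hy : a1 < a ∨ b < b1) {F : Set (ℤ × ℤ)}
    (f1 : ↑(Rsq a1 a c1 d1) ⊆ F) (f2 : ↑(Rsq b b1 c1 d1) ⊆ F) (f3 : ↑(Rsq a1 b1 c1 c) ⊆ F)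
    (f4 : ↑(Rsq a1 b1 d d1) ⊆ F) {u v : ℤ × ℤ} (hu : u ∈ Rsi a1 b1 c1 c)
    (hv : v ∈ Rsi a1 b1 d d1) (h : (u.1 + u.2) % 2 = (v.1 + v.2) % 2) :
    ReflTransGen (PStep F) u v := by
  rcases hy with h6 | h6
  · obtain ⟨w, w1, w2, w3⟩ := ex_par' a1 c (u.1 + u.2)
    have hw : w ∈ Rsi a1 a c1 d1 := ⟨by omega, by omega, by omega, by omega⟩
    exact (two_rect (by omega) hc h6 (by omega) f3 f1 (by omega) (by omega) hu hw w3).trans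
      (rtg_symm (two_rect (by omega) hd h6 (by omega) f4 f1 (by omega) (by omega) hv hw
        (h.symm.trans w3)))
  · obtain ⟨w, w1, w2, w3⟩ := ex_par' b1 c (u.1 + u.2)
    have hw : w ∈ Rsi b b1 c1 d1 := ⟨by omega, by omega, by omega, by omega⟩
    exact (two_rect (by omega) hc h6 (by omega) f3 f2 (by omega) (by omega) hu hw w3).trans
      (rtg_symm (two_rect (by omega) hd h6 (by omega) f4 f2 (by omega) (by omega) hv hw
        (h.symm.trans w3)))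

theorem frame_conn {a b c d a1 b1 c1 d1 : ℤ} (hab : a < b) (hcd : c < d) (ha : a1 ≤ a)
    (hb : b ≤ b1) (hc : c1 ≤ c) (hd : d ≤ d1) (hx : a1 < a → b < b1 → c1 < c ∨ d < d1)
    (hy : c1 < c → d < d1 → a1 < a ∨ b < b1) {F : Set (ℤ × ℤ)}
    (hF : ∀ s ∈ Rsq a1 b1 c1 d1, s ∉ Rsq a b c d → s ∈ F) {u v : ℤ × ℤ}
    (hu : Fr a b c d a1 b1 c1 d1 u) (hv : Fr a b c d a1 b1 c1 d1 v)
    (h : (u.1 + u.2) % 2 = (v.1 + v.2) % 2) : ReflTransGen (PStep F) u v := by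
  obtain ⟨⟨f1, f2⟩, f3, f4⟩ := frame_sub ha hb hc hd hab hcd hF
  obtain ⟨⟨u1, u2, u3, u4⟩, hu⟩ := hu
  obtain ⟨⟨v1, v2, v3, v4⟩, hv⟩ := hv
  clear hF
  rcases hu with ⟨k1, k2⟩ | ⟨k1, k2⟩ | ⟨k1, k2⟩ | ⟨k1, k2⟩ <;>
    rcases hv with ⟨l1, l2⟩ | ⟨l1, l2⟩ | ⟨l1, l2⟩ | ⟨l1, l2⟩
  · exact rect_conn k1 (by omega) f1 ⟨u1, k2, u3, u4⟩ ⟨v1, l2, v3, v4⟩ h
  · exact frame_lr hab hcd hc hd k1 l1 (hx k1 l1) f1 f2 f3 f4 ⟨u1, k2, u3, u4⟩
      ⟨l2, v2, v3, v4⟩ h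
  · exact two_rect k1 (by omega) (by omega) l1 f1 f3 (by omega) (by omega) ⟨u1, k2, u3, u4⟩
      ⟨v1, v2, v3, l2⟩ h
  · exact two_rect k1 (by omega) (by omega) l1 f1 f4 (by omega) (by omega) ⟨u1, k2, u3, u4⟩
      ⟨v1, v2, l2, v4⟩ h
  · exact rtg_symm (frame_lr hab hcd hc hd l1 k1 (hx l1 k1) f1 f2 f3 f4 ⟨v1, l2, v3, v4⟩
      ⟨k2, u2, u3, u4⟩ h.symm)
  · exact rect_conn k1 (by omega) f2 ⟨k2, u2, u3, u4⟩ ⟨l2, v2, v3, v4⟩ h
  · exact two_rect k1 (by omega) (by omega) l1 f2 f3 (by omega) (by omega) ⟨k2, u2, u3, u4⟩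
      ⟨v1, v2, v3, l2⟩ h
  · exact two_rect k1 (by omega) (by omega) l1 f2 f4 (by omega) (by omega) ⟨k2, u2, u3, u4⟩
      ⟨v1, v2, l2, v4⟩ h
  · exact two_rect (by omega) k1 l1 (by omega) f3 f1 (by omega) (by omega) ⟨u1, u2, u3, k2⟩
      ⟨v1, l2, v3, v4⟩ h
  · exact two_rect (by omega) k1 l1 (by omega) f3 f2 (by omega) (by omega) ⟨u1, u2, u3, k2⟩
      ⟨l2, v2, v3, v4⟩ h
  · exact rect_conn (by omega) k1 f3 ⟨u1, u2, u3, k2⟩ ⟨v1, v2, v3, l2⟩ h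
  · exact frame_bt hab hcd ha hb k1 l1 (hy k1 l1) f1 f2 f3 f4 ⟨u1, u2, u3, k2⟩
      ⟨v1, v2, l2, v4⟩ h
  · exact two_rect (by omega) k1 l1 (by omega) f4 f1 (by omega) (by omega) ⟨u1, u2, k2, u4⟩
      ⟨v1, l2, v3, v4⟩ h
  · exact two_rect (by omega) k1 l1 (by omega) f4 f2 (by omega) (by omega) ⟨u1, u2, k2, u4⟩
      ⟨l2, v2, v3, v4⟩ h
  · exact rtg_symm (frame_bt hab hcd ha hb l1 k1 (hy l1 k1) f1 f2 f3 f4 ⟨v1, v2, v3, l2⟩
      ⟨u1, u2, k2, u4⟩ h.symm)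
  · exact rect_conn (by omega) k1 f4 ⟨u1, u2, k2, u4⟩ ⟨v1, v2, l2, v4⟩ h

/-! ### Explored clusters -/

/-- The odd sites joined to `A` by closed squares of `Z`. -/
def Kc (A : Set (ℤ × ℤ)) (Z : Finset (ℤ × ℤ)) (ω : Cfg) : Set (ℤ × ℤ) :=
  {κ | ∃ p ∈ A, Odd (p.1 + p.2) ∧ ReflTransGen (PStep ((op ω)ᶜ ∩ ↑Z)) p κ}

/-- The squares with a corner in `K`. -/
def Tc (K : Set (ℤ × ℤ)) : Set (ℤ × ℤ) :=
  {s | ∃ κ ∈ K, s.1 ≤ κ.1 ∧ κ.1 ≤ s.1 + 1 ∧ s.2 ≤ κ.2 ∧ κ.2 ≤ s.2 + 1}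

variable {A : Set (ℤ × ℤ)} {Z : Finset (ℤ × ℤ)} {ω ω' : Cfg}

theorem Kc_odd {κ : ℤ × ℤ} (h : κ ∈ Kc A Z ω) : Odd (κ.1 + κ.2) := by
  obtain ⟨p, -, hp, h⟩ := h
  have := rtg_par h
  rw [Int.odd_iff] at *
  omega

theorem Kc_step {x y : ℤ × ℤ} (hx : x ∈ Kc A Z ω) (h : PStep ((op ω)ᶜ ∩ ↑Z) x y) :
    y ∈ Kc A Z ω := by
  obtain ⟨p, hp, ho, h1⟩ := hx
  exact ⟨p, hp, ho, h1.tail h⟩

/-- The square of a step touches the first site. -/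
theorem step_Tc {K F : Set (ℤ × ℤ)} {x y : ℤ × ℤ} (hx : x ∈ K) (h : PStep F x y) :
    (min x.1 y.1, min x.2 y.2) ∈ Tc K := by
  obtain ⟨h1, h2, -⟩ := h
  exact ⟨x, hx, by simp only; omega, by simp only; omega, by simp only; omega, by simp only; omega⟩

/-- The explored cluster is determined by the squares which touch it. -/
theorem Kc_eq (h : ∀ v ∈ Z, v ∈ Tc (Kc A Z ω) → ω v = ω' v) : Kc A Z ω' = Kc A Z ω := by
  have e : ∀ v, v ∈ Z → v ∈ Tc (Kc A Z ω) → (v ∈ (op ω)ᶜ ↔ v ∈ (op ω')ᶜ) := by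
    intro v h1 h2
    have h3 : ω v = ω' v := h v h1 h2
    show (¬ ω v = true) ↔ (¬ ω' v = true)
    rw [h3]
  apply Set.Subset.antisymm
  · rintro κ ⟨p, hp, ho, h1⟩
    refine ⟨p, hp, ho, ?_⟩
    induction h1 with
    | refl => exact ReflTransGen.refl
    | @tail x y _ hxy ih =>
      refine ih.tail ⟨hxy.1, hxy.2.1, ?_⟩
      have h2 := step_Tc (K := Kc A Z ω) ⟨p, hp, ho, ih⟩ hxy
      obtain ⟨-, -, h3, h4⟩ := hxy
      exact ⟨(e _ h4 h2).2 h3, h4⟩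
  · rintro κ ⟨p, hp, ho, h1⟩
    refine ⟨p, hp, ho, ?_⟩
    have key : ReflTransGen (PStep ((op ω)ᶜ ∩ ↑Z)) p κ ∧
        ReflTransGen (PStep ((op ω')ᶜ ∩ ↑Z)) p κ := by
      induction h1 with
      | refl => exact ⟨ReflTransGen.refl, ReflTransGen.refl⟩
      | @tail x y _ hxy ih =>
        have h2 := step_Tc (K := Kc A Z ω) ⟨p, hp, ho, ih.1⟩ hxy
        refine ⟨ih.1.tail hxy, ih.2.tail ⟨hxy.1, hxy.2.1, ?_⟩⟩
        obtain ⟨-, -, h3, h4⟩ := hxy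
        exact ⟨(e _ h4 h2).1 h3, h4⟩
    exact key.2

/-- A path which ends off `K` does not visit `K` and its squares do not touch `K`. -/
theorem cut_path {K F : Set (ℤ × ℤ)} (hK : ∀ x ∈ K, Odd (x.1 + x.2))
    (hst : ∀ x ∈ K, ∀ y, PStep F x y → y ∈ K) {p q : ℤ × ℤ} (hp : Odd (p.1 + p.2)) (hq : q ∉ K)
    (h : ReflTransGen (PStep F) p q) : p ∉ K ∧ ReflTransGen (PStep (F \ Tc K)) p q := by
  induction h using ReflTransGen.head_induction_on with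
  | refl => exact ⟨hq, ReflTransGen.refl⟩
  | @head x y hxy _ ih =>
    have hy : Odd (y.1 + y.2) := by
      obtain ⟨h1, h2, -⟩ := hxy
      rw [Int.odd_iff] at *
      omega
    obtain ⟨i1, i2⟩ := ih hy
    have hx : x ∉ K := fun hx => i1 (hst x hx y hxy)
    refine ⟨hx, ReflTransGen.head ⟨hxy.1, hxy.2.1, hxy.2.2, ?_⟩ i2⟩
    rintro ⟨κ, hκ, h3, h4, h5, h6⟩
    obtain ⟨h1, h2, -⟩ := hxy
    have ho := hK κ hκ
    rw [Int.odd_iff] at ho hp hy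
    simp only at h3 h4 h5 h6
    have h7 : κ = x ∨ κ = y := by
      obtain ⟨κ1, κ2⟩ := κ
      obtain ⟨x1, x2⟩ := x
      obtain ⟨y1, y2⟩ := y
      simp only [Prod.mk.injEq] at *
      omega
    rcases h7 with rfl | rfl
    · exact hx hκ
    · exact i1 hκ

/-! ### The squares around an explored cluster -/

/-- Even sites on the frame or next to the cluster. -/
def Ct (a b c d a1 b1 c1 d1 : ℤ) (K : Set (ℤ × ℤ)) (z : ℤ × ℤ) : Prop :=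
  Even (z.1 + z.2) ∧ z ∈ Rsi a1 b1 c1 d1 ∧ (Fr a b c d a1 b1 c1 d1 z ∨
    ∃ κ ∈ K, κ.1 - 1 ≤ z.1 ∧ z.1 ≤ κ.1 + 1 ∧ κ.2 - 1 ≤ z.2 ∧ z.2 ≤ κ.2 + 1)

/-- Even corners of a square which touches `K`. -/
theorem Ct_of_Tc {a b c d a1 b1 c1 d1 : ℤ} {K : Set (ℤ × ℤ)} {z s : ℤ × ℤ} (hs : s ∈ Tc K)
    (hz : H816.Co z s) (hzR : z ∈ Rsi a1 b1 c1 d1) : Ct a b c d a1 b1 c1 d1 K z := by
  obtain ⟨κ, hκ, h1, h2, h3, h4⟩ := hs
  have he := hz.even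
  refine ⟨he, hzR, Or.inr ⟨κ, hκ, ?_⟩⟩
  rw [H816.Co_iff he] at hz
  simp only [H816.four, Finset.mem_insert, Finset.mem_singleton] at hz
  rcases hz with rfl | rfl | rfl | rfl <;> simp only at h1 h2 h3 h4 <;> omega

/-- The even sites around a site of the rectangle. -/
theorem halo {a1 b1 c1 d1 : ℤ} (hab : a1 < b1) (hcd : c1 < d1) {F : Set (ℤ × ℤ)} {κ : ℤ × ℤ}
    (hκ : κ ∈ Rsi a1 b1 c1 d1) (hF : ∀ s ∈ Rsq a1 b1 c1 d1, s.1 ≤ κ.1 → κ.1 ≤ s.1 + 1 →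
      s.2 ≤ κ.2 → κ.2 ≤ s.2 + 1 → s ∈ F) {z z' : ℤ × ℤ} (hz : z ∈ Rsi a1 b1 c1 d1)
    (hz' : z' ∈ Rsi a1 b1 c1 d1)
    (h : κ.1 - 1 ≤ z.1 ∧ z.1 ≤ κ.1 + 1 ∧ κ.2 - 1 ≤ z.2 ∧ z.2 ≤ κ.2 + 1)
    (h' : κ.1 - 1 ≤ z'.1 ∧ z'.1 ≤ κ.1 + 1 ∧ κ.2 - 1 ≤ z'.2 ∧ z'.2 ≤ κ.2 + 1)
    (hp : (z.1 + z.2) % 2 = (z'.1 + z'.2) % 2) : ReflTransGen (PStep F) z z' := by
  obtain ⟨k1, k2, k3, k4⟩ := hκ
  obtain ⟨l1, l2, l3, l4⟩ := hz
  obtain ⟨m1, m2, m3, m4⟩ := hz'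
  refine rect_conn (a := max a1 (κ.1 - 1)) (b := min b1 (κ.1 + 1)) (c := max c1 (κ.2 - 1))
    (d := min d1 (κ.2 + 1)) (by omega) (by omega) (fun s hs => ?_) ⟨by omega, by omega, by omega,
      by omega⟩ ⟨by omega, by omega, by omega, by omega⟩ hp
  rw [Finset.mem_coe, mem_Rsq] at hs
  exact hF s (by rw [mem_Rsq]; omega) (by omega) (by omega) (by omega) (by omega)

/-- The squares of `[a1, b1] × [c1, d1]` off `[a, b] × [c, d]` or touching `K`. -/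
def Ob (a b c d a1 b1 c1 d1 : ℤ) (K : Set (ℤ × ℤ)) : Set (ℤ × ℤ) :=
  {s | s ∈ Rsq a1 b1 c1 d1 ∧ (s ∉ Rsq a b c d ∨ s ∈ Tc K)}

theorem sigma {a b c d a1 b1 c1 d1 : ℤ} (hab : a < b) (hcd : c < d) (ha : a1 ≤ a)
    (hb : b ≤ b1) (hc : c1 ≤ c) (hd : d ≤ d1) (hx : a1 < a → b < b1 → c1 < c ∨ d < d1)
    (hy : c1 < c → d < d1 → a1 < a ∨ b < b1) (hZ : Z ⊆ Rsq a b c d)
    (hA : ∀ p ∈ A, p ∈ Rsi a b c d ∧ ((a1 < a ∧ p.1 = a) ∨ (b < b1 ∧ p.1 = b) ∨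
      (c1 < c ∧ p.2 = c) ∨ (d < d1 ∧ p.2 = d))) {u v : ℤ × ℤ}
    (hu : Ct a b c d a1 b1 c1 d1 (Kc A Z ω) u) (hv : Ct a b c d a1 b1 c1 d1 (Kc A Z ω) v) :
    ReflTransGen (PStep (Ob a b c d a1 b1 c1 d1 (Kc A Z ω))) u v := by
  set K := Kc A Z ω with hKdef
  set F := Ob a b c d a1 b1 c1 d1 K with hF
  have fr : ∀ u v : ℤ × ℤ, Fr a b c d a1 b1 c1 d1 u → Fr a b c d a1 b1 c1 d1 v →
      (u.1 + u.2) % 2 = (v.1 + v.2) % 2 → ReflTransGen (PStep F) u v := fun u v h1 h2 h3 =>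
    frame_conn hab hcd ha hb hc hd hx hy (F := F)
      (fun s hs hs' => (show s ∈ Ob a b c d a1 b1 c1 d1 K from ⟨hs, Or.inl hs'⟩)) h1 h2 h3
  -- from the cluster to the frame
  have key : ∀ κ ∈ K, κ ∈ Rsi a b c d ∧ ∀ z : ℤ × ℤ, z ∈ Rsi a1 b1 c1 d1 → Even (z.1 + z.2) →
      (κ.1 - 1 ≤ z.1 ∧ z.1 ≤ κ.1 + 1 ∧ κ.2 - 1 ≤ z.2 ∧ z.2 ≤ κ.2 + 1) →
      ∃ w : ℤ × ℤ, Fr a b c d a1 b1 c1 d1 w ∧ Even (w.1 + w.2) ∧ ReflTransGen (PStep F) z w := by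
    rintro κ ⟨p, hp, ho, h⟩
    induction h with
    | refl =>
      obtain ⟨h1, h2⟩ := hA p hp
      refine ⟨h1, fun z hz hze hzp => ?_⟩
      have hpK : p ∈ K := ⟨p, hp, ho, ReflTransGen.refl⟩
      obtain ⟨k1, k2, k3, k4⟩ := h1
      have hpR : p ∈ Rsi a1 b1 c1 d1 := ⟨by omega, by omega, by omega, by omega⟩
      -- a neighbour in the frame
      obtain ⟨w, w1, w2, w3⟩ : ∃ w : ℤ × ℤ, Fr a b c d a1 b1 c1 d1 w ∧ Even (w.1 + w.2) ∧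
          (p.1 - 1 ≤ w.1 ∧ w.1 ≤ p.1 + 1 ∧ p.2 - 1 ≤ w.2 ∧ w.2 ≤ p.2 + 1) := by
        rw [Int.odd_iff] at ho
        rcases h2 with ⟨l1, l2⟩ | ⟨l1, l2⟩ | ⟨l1, l2⟩ | ⟨l1, l2⟩
        · refine ⟨(p.1 - 1, p.2), ⟨⟨?_, ?_, ?_, ?_⟩, Or.inl ⟨l1, ?_⟩⟩, ?_, ?_, ?_, ?_, ?_⟩
          all_goals first | (simp only; omega) | (rw [Int.even_iff]; simp only; omega)
        · refine ⟨(p.1 + 1, p.2), ⟨⟨?_, ?_, ?_, ?_⟩, Or.inr (Or.inl ⟨l1, ?_⟩)⟩, ?_, ?_, ?_, ?_, ?_⟩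
          all_goals first | (simp only; omega) | (rw [Int.even_iff]; simp only; omega)
        · refine ⟨(p.1, p.2 - 1), ⟨⟨?_, ?_, ?_, ?_⟩, Or.inr (Or.inr (Or.inl ⟨l1, ?_⟩))⟩,
            ?_, ?_, ?_, ?_, ?_⟩
          all_goals first | (simp only; omega) | (rw [Int.even_iff]; simp only; omega)
        · refine ⟨(p.1, p.2 + 1), ⟨⟨?_, ?_, ?_, ?_⟩, Or.inr (Or.inr (Or.inr ⟨l1, ?_⟩))⟩,
            ?_, ?_, ?_, ?_, ?_⟩
          all_goals first | (simp only; omega) | (rw [Int.even_iff]; simp only; omega)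
      refine ⟨w, w1, w2, halo (by omega) (by omega) hpR (fun s hs h1 h2 h3 h4 =>
        (show s ∈ Ob a b c d a1 b1 c1 d1 K from ⟨hs, Or.inr ⟨p, hpK, h1, h2, h3, h4⟩⟩))
        hz w1.1 hzp w3 ?_⟩
      rw [Int.even_iff] at *
      omega
    | @tail x y hpx hxy ih =>
      obtain ⟨⟨k1, k2, k3, k4⟩, ih⟩ := ih
      have hyK : y ∈ K := ⟨p, hp, ho, hpx.tail hxy⟩
      obtain ⟨h1, h2, h3, h4⟩ := hxy
      have h5 := mem_Rsq.1 (hZ (Finset.mem_coe.1 h4))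
      simp only at h5
      have hyR : y ∈ Rsi a b c d := ⟨by omega, by omega, by omega, by omega⟩
      refine ⟨hyR, fun z hz hze hzy => ?_⟩
      have ho2 := rtg_par hpx
      -- the even corner of the square
      have hw1 : (x.1, y.2) ∈ Rsi a1 b1 c1 d1 :=
        ⟨by simp only; omega, by simp only; omega, by simp only; omega, by simp only; omega⟩
      obtain ⟨w', w1, w2, w3⟩ := ih (x.1, y.2) hw1
        (by rw [Int.odd_iff] at ho; rw [Int.even_iff]; simp only; omega)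
        ⟨by simp only; omega, by simp only; omega, by simp only; omega, by simp only; omega⟩
      refine ⟨w', w1, w2, ReflTransGen.trans ?_ w3⟩
      refine halo (by omega) (by omega) (κ := y) ⟨by omega, by omega, by omega, by omega⟩
        (fun s hs h1 h2 h3 h4 =>
          (show s ∈ Ob a b c d a1 b1 c1 d1 K from ⟨hs, Or.inr ⟨y, hyK, h1, h2, h3, h4⟩⟩))
        hz hw1 hzy
        ⟨by simp only; omega, by simp only; omega, by simp only; omega, by simp only; omega⟩ ?_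
      rw [Int.odd_iff] at ho
      rw [Int.even_iff] at hze
      simp only
      omega
  have all : ∀ z, Ct a b c d a1 b1 c1 d1 K z →
      ∃ w : ℤ × ℤ, Fr a b c d a1 b1 c1 d1 w ∧ Even (w.1 + w.2) ∧ ReflTransGen (PStep F) z w := by
    rintro z ⟨h1, h2, h3 | ⟨κ, h3, h4⟩⟩
    · exact ⟨z, h3, h1, ReflTransGen.refl⟩
    · exact (key κ h3).2 z h2 h1 h4
  obtain ⟨w, w1, w2, w3⟩ := all u hu
  obtain ⟨w', w1', w2', w3'⟩ := all v hv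
  refine (w3.trans (fr w w' w1 w1' ?_)).trans (rtg_symm w3')
  rw [Int.even_iff] at *
  omega

end Vale.Agent.P167.H906
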