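import Vale.Agent.P167.H906.Ann
import Vale.Agent.P167.H635.Shape

/-!
# P167: arms in a part of an annulus, `0 < Q ≤ 1`

The squares of the annulus off the domain are frozen in any way. `ArmDM U x r R`: a dual path of
closed squares of `U` crosses the annulus. `tsmd`: if the domain is in the annulus the intersection or
the union of two coordinate half planes then there is no such path with a probability bounded from
below, for all configurations elsewhere.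
-/

set_option autoImplicit false

namespace Vale.Agent.P167.H906

open Finset
open Relation (ReflTransGen)
open Vale.Agent.P145.FB (PStep PConn)
open Vale.Agent.P167 Vale.Agent.P167.FK Vale.Agent.P167.H262
open Vale.Agent.P167.H635 (HP Shp)
open Vale.Agent.P167.FKA (Loc Ind)

variable {Q : ℝ} {A : Set (ℤ × ℤ)} {W Z D U : Finset (ℤ × ℤ)} {η ω : Cfg}

/-- `ω` with the squares of `W` opened. -/
def opn (W : Finset (ℤ × ℤ)) (ω : Cfg) : Cfg := fun v => if v ∈ W then true else ω v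

theorem mem_op_opn {v : ℤ × ℤ} : v ∈ op (opn W ω) ↔ v ∈ W ∨ v ∈ op ω := by
  show opn W ω v = true ↔ v ∈ W ∨ ω v = true
  unfold opn
  split_ifs with h
  · exact iff_of_true rfl (Or.inl h)
  · exact ⟨Or.inr, fun h' => h'.resolve_left h⟩

theorem Kc_opn : Kc A Z (opn W ω) = Kc A (Z \ W) ω := by
  have e : (op (opn W ω))ᶜ ∩ (↑Z : Set (ℤ × ℤ)) = (op ω)ᶜ ∩ ↑(Z \ W) := by
    ext v
    simp only [Set.mem_inter_iff, Set.mem_compl_iff, mem_op_opn, Finset.coe_sdiff, Set.mem_sdiff,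
      Finset.mem_coe]
    tauto
  unfold Kc
  rw [e]

/-- A path from `X` to `Y` in `F`; every square of `F` is in `O` or has its even corners in `X` or has
them in `Y`. Then a path in `O` joins `X` to `Y`. -/
theorem mix {F O X Y : Set (ℤ × ℤ)} (hF : ∀ s ∈ F, s ∈ O ∨ (∀ z, H816.Co z s → z ∈ X) ∨
    (∀ z, H816.Co z s → z ∈ Y)) {x y : ℤ × ℤ} (hxe : Even (x.1 + x.2)) (hx : x ∈ X) (hy : y ∈ Y)
    (h : ReflTransGen (PStep F) x y) : ∃ u ∈ X, ∃ v ∈ Y, ReflTransGen (PStep O) u v := by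
  have key : ∀ w, Even (w.1 + w.2) → ReflTransGen (PStep F) w y →
      (∃ v ∈ Y, ReflTransGen (PStep O) w v) ∨ ∃ u ∈ X, ∃ v ∈ Y, ReflTransGen (PStep O) u v := by
    intro w hw h
    induction h using ReflTransGen.head_induction_on with
    | refl => exact Or.inl ⟨y, hy, ReflTransGen.refl⟩
    | @head a b hab _ ih =>
      have hbe : Even (b.1 + b.2) := by
        obtain ⟨h1, h2, -⟩ := hab
        rw [Int.even_iff] at *
        omega
      have hco : H816.Co a (min a.1 b.1, min a.2 b.2) ∧ H816.Co b (min a.1 b.1, min a.2 b.2) := by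
        obtain ⟨h1, h2, -⟩ := hab
        rw [H816.Co_iff hw, H816.Co_iff hbe]
        simp only [H816.four, Finset.mem_insert, Finset.mem_singleton, Prod.mk.injEq]
        omega
      rcases ih hbe with ⟨v, hv, h1⟩ | h1
      · rcases hF _ hab.2.2 with h2 | h2 | h2
        · exact Or.inl ⟨v, hv, ReflTransGen.head ⟨hab.1, hab.2.1, h2⟩ h1⟩
        · exact Or.inr ⟨b, h2 b hco.2, v, hv, h1⟩
        · exact Or.inl ⟨a, h2 a hco.1, ReflTransGen.refl⟩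
      · exact Or.inr h1
  rcases key x hxe h with ⟨v, hv, h1⟩ | h1
  · exact ⟨x, hx, v, hv, h1⟩
  · exact h1

/-- The even corners of the square `s` are joined to `E` by squares of `T`. -/
def Att (T : Finset (ℤ × ℤ)) (E : Set (ℤ × ℤ)) (s : ℤ × ℤ) : Prop :=
  ∀ z, H816.Co z s → ∃ e ∈ E, ReflTransGen (PStep (↑T : Set (ℤ × ℤ))) e z

/-- The crossing of the rest of a strip with frozen squares. -/
theorem cross_frozen (hQ : 0 < Q) (hQ1 : Q ≤ 1) {a b c d : ℤ} {K : Set (ℤ × ℤ)}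
    {P1 P2 : ℤ × ℤ → Prop} {E1 E2 : Set (ℤ × ℤ)} (hE1 : E1 ⊆ Pb (Rsq a b c d))
    (hE2 : E2 ⊆ Pb (Rsq a b c d)) (hP : ∀ s ∈ Rsq a b c d, s ∈ Tc K → P1 s ∨ P2 s)
    (hW : ∀ s ∈ Rsq a b c d, s ∈ W → Att (W ∩ Rsq a b c d) E1 s ∨ Att (W ∩ Rsq a b c d) E2 s)
    (hD : Rsq a b c d \ W ⊆ D) {ζ : Cfg} (hζ : Good ζ) :
    Pr Q (Rsq a b c d) eta1 (CI (Rsq a b c d) E1 E2) ≤
      Pr Q (D \ Lc D K) ζ {ω | opn W ω ∈ CI (Rsq a b c d \ Lc (Rsq a b c d) K)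
        (Xc K (Rsq a b c d) P1 E1) (Xc K (Rsq a b c d) P2 E2)} := by
  classical
  set S := Rsq a b c d with hS
  set X := Xc K S P1 E1 with hX
  set Y := Xc K S P2 E2 with hY
  set X' := X ∪ {z | ∃ s ∈ S, s ∈ W ∧ Att (W ∩ S) E1 s ∧ H816.Co z s} with hX'
  set Y' := Y ∪ {z | ∃ s ∈ S, s ∈ W ∧ Att (W ∩ S) E2 s ∧ H816.Co z s} with hY'
  have hE1X : E1 ⊆ X := Set.subset_union_left
  have hE2Y : E2 ⊆ Y := Set.subset_union_left
  have hev : ∀ z ∈ E1, Even (z.1 + z.2) := fun z hz => even_Pb (hE1 hz)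
  -- touched squares
  have hT : ∀ s ∈ S, s ∈ Tc K → (∀ z, H816.Co z s → z ∈ X) ∨ (∀ z, H816.Co z s → z ∈ Y) := by
    intro s hs hsT
    rcases hP s hs hsT with h | h
    · exact Or.inl fun z hz => Or.inr ⟨s, hs, h, hsT, hz⟩
    · exact Or.inr fun z hz => Or.inr ⟨s, hs, h, hsT, hz⟩
  have h1 := rough_rect (Q := Q) (D := D \ Lc D K) (η := ζ) (L := Lc S K ∪ (W ∩ S)) hQ hQ1 hζ hE1
    hE2 (A' := X') (B' := Y') (hE1X.trans Set.subset_union_left)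
    (hE2Y.trans Set.subset_union_left) (fun e he heS => ?_) (fun e he => ?_)
  · refine h1.trans (FKA.Pr_mono hQ ?_)
    rintro ω ⟨u, hu, v, hv, hρ⟩
    -- the fresh path is open after the opening of `W`
    have hρ' : ReflTransGen (PStep (op (opn W ω) ∩ (↑S : Set (ℤ × ℤ)))) u v := by
      refine rtg_mono (fun s hs => ⟨mem_op_opn.2 (Or.inr hs.1), ?_⟩) hρ
      exact Finset.mem_coe.2 (Finset.mem_sdiff.1 (Finset.mem_coe.1 hs.2)).1
    have hWop : (↑(W ∩ S) : Set (ℤ × ℤ)) ⊆ op (opn W ω) ∩ (↑S : Set (ℤ × ℤ)) := by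
      intro s hs
      rw [Finset.coe_inter] at hs
      exact ⟨mem_op_opn.2 (Or.inl (Finset.mem_coe.1 hs.1)), hs.2⟩
    have hXeven : ∀ z ∈ X, Even (z.1 + z.2) := by
      rintro z (hz | ⟨s, -, -, -, hz⟩)
      · exact hev z hz
      · exact hz.even
    obtain ⟨x, hx, hxu⟩ : ∃ x ∈ X, ReflTransGen (PStep (op (opn W ω) ∩ (↑S : Set (ℤ × ℤ)))) x u := by
      rcases hu with hu | ⟨s, hs, hsW, hatt, hz⟩
      · exact ⟨u, hu, ReflTransGen.refl⟩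
      · obtain ⟨e, he, h2⟩ := hatt u hz
        exact ⟨e, hE1X he, rtg_mono hWop h2⟩
    obtain ⟨y, hy, hvy⟩ : ∃ y ∈ Y, ReflTransGen (PStep (op (opn W ω) ∩ (↑S : Set (ℤ × ℤ)))) v y := by
      rcases hv with hv | ⟨s, hs, hsW, hatt, hz⟩
      · exact ⟨v, hv, ReflTransGen.refl⟩
      · obtain ⟨e, he, h2⟩ := hatt v hz
        exact ⟨e, hE2Y he, rtg_symm (rtg_mono hWop h2)⟩
    refine mix (F := op (opn W ω) ∩ (↑S : Set (ℤ × ℤ))) (fun s hs => ?_) (hXeven x hx) hx hy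
      (hxu.trans (hρ'.trans hvy))
    by_cases hsT : s ∈ Tc K
    · exact Or.inr (hT s (Finset.mem_coe.1 hs.2) hsT)
    · refine Or.inl ⟨hs.1, Finset.mem_coe.2 (Finset.mem_sdiff.2 ⟨Finset.mem_coe.1 hs.2, ?_⟩)⟩
      exact fun h => hsT (mem_Lc.1 h).2
  · rcases Finset.mem_union.1 he with h | h
    · rcases hT e heS (mem_Lc.1 h).2 with h2 | h2
      · exact Or.inl ⟨Or.inl (h2 _ (Or.inl rfl)), Or.inl (h2 _ (Or.inr rfl))⟩
      · exact Or.inr ⟨Or.inl (h2 _ (Or.inl rfl)), Or.inl (h2 _ (Or.inr rfl))⟩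
    · have hW' := (Finset.mem_inter.1 h).1
      rcases hW e heS hW' with h2 | h2
      · exact Or.inl ⟨Or.inr ⟨e, heS, hW', h2, Or.inl rfl⟩, Or.inr ⟨e, heS, hW', h2, Or.inr rfl⟩⟩
      · exact Or.inr ⟨Or.inr ⟨e, heS, hW', h2, Or.inl rfl⟩, Or.inr ⟨e, heS, hW', h2, Or.inr rfl⟩⟩
  · rw [Finset.mem_sdiff, Finset.mem_union, Finset.mem_inter, mem_Lc] at he
    rw [Finset.mem_sdiff, mem_Lc]
    refine ⟨hD (Finset.mem_sdiff.2 ⟨he.1, fun h => he.2 (Or.inr ⟨h, he.1⟩)⟩), fun h => ?_⟩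
    exact he.2 (Or.inl ⟨he.1, h.2⟩)

/-! ### Frozen rectangles attached to the ends of a strip -/

/-- Even sites of a vertical side of a rectangle. -/
theorem ex_even2 (x c : ℤ) : ∃ z : ℤ × ℤ, Even (z.1 + z.2) ∧ z.1 = x ∧ (z.2 = c ∨ z.2 = c + 1) := by
  by_cases h : Even (x + c)
  · exact ⟨(x, c), h, rfl, Or.inl rfl⟩
  · refine ⟨(x, c + 1), ?_, rfl, Or.inr rfl⟩
    rw [Int.even_iff] at *
    simp only
    omega

/-- Even sites of a horizontal side of a rectangle. -/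
theorem ex_even1 (x c : ℤ) : ∃ z : ℤ × ℤ, Even (z.1 + z.2) ∧ z.2 = c ∧ (z.1 = x ∨ z.1 = x + 1) := by
  by_cases h : Even (x + c)
  · exact ⟨(x, c), h, rfl, Or.inl rfl⟩
  · refine ⟨(x + 1, c), ?_, rfl, Or.inr rfl⟩
    rw [Int.even_iff] at *
    simp only
    omega

theorem att_rect {T : Finset (ℤ × ℤ)} {E : Set (ℤ × ℤ)} {a b c d : ℤ} (hR : Rsq a b c d ⊆ T)
    {s : ℤ × ℤ} (hs : s ∈ Rsq a b c d) (hE : ∃ e ∈ E, Even (e.1 + e.2) ∧ e ∈ Rsi a b c d) :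
    Att T E s := by
  intro z hz
  obtain ⟨e, he, hee, heR⟩ := hE
  have hze := hz.even
  obtain ⟨k1, k2, k3, k4⟩ := co_bd hz
  rw [mem_Rsq] at hs
  refine ⟨e, he, rect_conn (a := a) (b := b) (c := c) (d := d) (by omega) (by omega)
    (fun v hv => Finset.mem_coe.2 (hR (Finset.mem_coe.1 hv))) heR
    ⟨by omega, by omega, by omega, by omega⟩ ?_⟩
  rw [Int.even_iff] at *
  omega

/-- Horizontal strips. -/
theorem att_h {a b c d l1 m1 l2 m2 : ℤ} (hr : l1 ≤ a ∨ b ≤ m1) {s : ℤ × ℤ}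
    (hs : s ∈ Rsq a b c d) (hl : l1 ≤ s.1 ∧ s.1 < m1 ∧ l2 ≤ s.2 ∧ s.2 < m2)
    (hW : ∀ v ∈ Rsq a b c d, l1 ≤ v.1 → v.1 < m1 → l2 ≤ v.2 → v.2 < m2 → v ∈ W) :
    Att (W ∩ Rsq a b c d) (EL a b c d) s ∨ Att (W ∩ Rsq a b c d) (ER a b c d) s := by
  have hs' := mem_Rsq.1 hs
  have hsub : ∀ {x y : ℤ}, l1 ≤ x → a ≤ x → y ≤ m1 → y ≤ b →
      Rsq x y (max c l2) (min d m2) ⊆ W ∩ Rsq a b c d := by
    intro x y h1 h2 h3 h4 v hv
    rw [mem_Rsq] at hv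
    have hvS : v ∈ Rsq a b c d := by rw [mem_Rsq]; omega
    exact Finset.mem_inter.2 ⟨hW v hvS (by omega) (by omega) (by omega) (by omega), hvS⟩
  rcases hr with hr | hr
  · left
    obtain ⟨z, z1, z2, z3⟩ := ex_even2 a (max c l2)
    refine att_rect (hsub (x := a) (y := min b m1) hr (le_refl _) (min_le_right _ _)
      (min_le_left _ _)) (by rw [mem_Rsq]; omega) ⟨z, ⟨z1, ⟨by omega, by omega, by omega,
        by omega⟩, z2⟩, z1, by omega, by omega, by omega, by omega⟩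
  · right
    obtain ⟨z, z1, z2, z3⟩ := ex_even2 b (max c l2)
    refine att_rect (hsub (x := max a l1) (y := b) (le_max_right _ _) (le_max_left _ _) hr
      (le_refl _)) (by rw [mem_Rsq]; omega) ⟨z, ⟨z1, ⟨by omega, by omega, by omega,
        by omega⟩, z2⟩, z1, by omega, by omega, by omega, by omega⟩

/-- Vertical strips. -/
theorem att_v {a b c d l1 m1 l2 m2 : ℤ} (hr : l2 ≤ c ∨ d ≤ m2) {s : ℤ × ℤ}
    (hs : s ∈ Rsq a b c d) (hl : l1 ≤ s.1 ∧ s.1 < m1 ∧ l2 ≤ s.2 ∧ s.2 < m2)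
    (hW : ∀ v ∈ Rsq a b c d, l1 ≤ v.1 → v.1 < m1 → l2 ≤ v.2 → v.2 < m2 → v ∈ W) :
    Att (W ∩ Rsq a b c d) (ET a b c d) s ∨ Att (W ∩ Rsq a b c d) (EB a b c d) s := by
  have hs' := mem_Rsq.1 hs
  have hsub : ∀ {x y : ℤ}, l2 ≤ x → c ≤ x → y ≤ m2 → y ≤ d →
      Rsq (max a l1) (min b m1) x y ⊆ W ∩ Rsq a b c d := by
    intro x y h1 h2 h3 h4 v hv
    rw [mem_Rsq] at hv
    have hvS : v ∈ Rsq a b c d := by rw [mem_Rsq]; omega
    exact Finset.mem_inter.2 ⟨hW v hvS (by omega) (by omega) (by omega) (by omega), hvS⟩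
  rcases hr with hr | hr
  · right
    obtain ⟨z, z1, z2, z3⟩ := ex_even1 (max a l1) c
    refine att_rect (hsub (x := c) (y := min d m2) hr (le_refl _) (min_le_right _ _)
      (min_le_left _ _)) (by rw [mem_Rsq]; omega) ⟨z, ⟨z1, ⟨by omega, by omega, by omega,
        by omega⟩, z2⟩, z1, by omega, by omega, by omega, by omega⟩
  · left
    obtain ⟨z, z1, z2, z3⟩ := ex_even1 (max a l1) d
    refine att_rect (hsub (x := max c l2) (y := d) (le_max_right _ _) (le_max_left _ _) hr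
      (le_refl _)) (by rw [mem_Rsq]; omega) ⟨z, ⟨z1, ⟨by omega, by omega, by omega,
        by omega⟩, z2⟩, z1, by omega, by omega, by omega, by omega⟩

namespace Geo

variable (g : Geo)

/-- `W` is in the annulus a union of quarter planes, half planes. -/
def QU (W : Finset (ℤ × ℤ)) : Prop := ∀ v ∈ W, ∃ l1 m1 l2 m2 : ℤ, (l1 ≤ g.a ∨ g.b ≤ m1) ∧
  (l2 ≤ g.c ∨ g.d ≤ m2) ∧ (l1 ≤ v.1 ∧ v.1 < m1 ∧ l2 ≤ v.2 ∧ v.2 < m2) ∧
  ∀ w ∈ g.Z4, l1 ≤ w.1 → w.1 < m1 → l2 ≤ w.2 → w.2 < m2 → w ∈ W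

/-- **The peel** of an annulus with frozen squares `W`. -/
theorem peelW (hQ : 0 < Q) (hQ1 : Q ≤ 1) (hη : Good η) (hD : g.Z4 \ W ⊆ D) (hW : g.QU W) {c0 : ℝ}
    (h0 : 0 ≤ c0)
    (h1 : c0 ≤ Pr Q g.S1 eta1 (CI g.S1 (EL g.a g.b g.d' g.d) (ER g.a g.b g.d' g.d)))
    (h2 : c0 ≤ Pr Q g.S2 eta1 (CI g.S2 (ET g.a g.a' g.c g.d) (EB g.a g.a' g.c g.d)))
    (h3 : c0 ≤ Pr Q g.S3 eta1 (CI g.S3 (EL g.a g.b g.c g.c') (ER g.a g.b g.c g.c')))
    (h4 : c0 ≤ Pr Q g.S4 eta1 (CI g.S4 (ET g.b' g.b g.c g.d) (EB g.b' g.b g.c g.d))) :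
    c0 ^ 4 ≤ Pr Q D η {ω | g.P4 (g.K4 (opn W ω))} := by
  obtain ⟨k1, k2, k3, k4, k5, k6⟩ : g.a < g.a' ∧ g.a' + 2 ≤ g.b' ∧ g.b' < g.b ∧ g.c < g.c' ∧
    g.c' < g.d' ∧ g.d' < g.d := ⟨g.ha, g.hm, g.hb, g.hc, g.hk, g.hd⟩
  have t1 : g.S1 ⊆ g.Z4 := fun s hs => by
    simp only [S1, Z4, Bx, Finset.mem_sdiff, mem_Rsq] at *; omega
  have t2 : g.S2 ⊆ g.Z4 := fun s hs => by
    simp only [S2, Z4, Bx, Finset.mem_sdiff, mem_Rsq] at *; omega
  have t3 : g.S3 ⊆ g.Z4 := fun s hs => by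
    simp only [S3, Z4, Bx, Finset.mem_sdiff, mem_Rsq] at *; omega
  have t4 : g.S4 ⊆ g.Z4 := fun s hs => by
    simp only [S4, Z4, Bx, Finset.mem_sdiff, mem_Rsq] at *; omega
  have sD : ∀ {S : Finset (ℤ × ℤ)}, S ⊆ g.Z4 → S \ W ⊆ D := fun hS v hv =>
    hD (Finset.mem_sdiff.2 ⟨hS (Finset.mem_sdiff.1 hv).1, (Finset.mem_sdiff.1 hv).2⟩)
  have w1 : ∀ s ∈ g.S1, s ∈ W → Att (W ∩ g.S1) (EL g.a g.b g.d' g.d) s ∨
      Att (W ∩ g.S1) (ER g.a g.b g.d' g.d) s := by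
    intro s hs hsW
    obtain ⟨l1, m1, l2, m2, q1, q2, q3, q4⟩ := hW s hsW
    exact att_h q1 hs q3 fun v hv => q4 v (t1 hv)
  have w2 : ∀ s ∈ g.S2, s ∈ W → Att (W ∩ g.S2) (ET g.a g.a' g.c g.d) s ∨
      Att (W ∩ g.S2) (EB g.a g.a' g.c g.d) s := by
    intro s hs hsW
    obtain ⟨l1, m1, l2, m2, q1, q2, q3, q4⟩ := hW s hsW
    exact att_v q2 hs q3 fun v hv => q4 v (t2 hv)
  have w3 : ∀ s ∈ g.S3, s ∈ W → Att (W ∩ g.S3) (EL g.a g.b g.c g.c') s ∨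
      Att (W ∩ g.S3) (ER g.a g.b g.c g.c') s := by
    intro s hs hsW
    obtain ⟨l1, m1, l2, m2, q1, q2, q3, q4⟩ := hW s hsW
    exact att_h q1 hs q3 fun v hv => q4 v (t3 hv)
  have w4 : ∀ s ∈ g.S4, s ∈ W → Att (W ∩ g.S4) (ET g.b' g.b g.c g.d) s ∨
      Att (W ∩ g.S4) (EB g.b' g.b g.c g.d) s := by
    intro s hs hsW
    obtain ⟨l1, m1, l2, m2, q1, q2, q3, q4⟩ := hW s hsW
    exact att_v q2 hs q3 fun v hv => q4 v (t4 hv)
  -- step 1
  have hem : ∀ ω, Kc (∅ : Set (ℤ × ℤ)) ∅ ω = ∅ := by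
    intro ω
    ext x
    exact ⟨fun ⟨p, hp, _⟩ => hp, fun h => absurd h (Set.notMem_empty x)⟩
  have hTe : ∀ s : ℤ × ℤ, s ∉ Tc (∅ : Set (ℤ × ℤ)) := by
    rintro s ⟨x, hx, -⟩
    exact hx
  have e1 : c0 ≤ Pr Q D η {ω | g.P1 (Kc g.A1 (g.Z1 \ W) ω)} := by
    have h5 := cross_frozen (W := W) (D := D) (K := ∅) (P1 := fun _ => False)
      (P2 := fun _ => False) hQ hQ1
      EL_sub ER_sub (fun s _ hs => absurd hs (hTe s)) w1 (sD t1) hη
    have h6 : D \ Lc D ∅ = D := by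
      ext s
      rw [Finset.mem_sdiff, mem_Lc]
      exact ⟨fun h => h.1, fun h => ⟨h, fun h' => hTe s h'.2⟩⟩
    rw [h6] at h5
    refine (h1.trans h5).trans (FKA.Pr_mono hQ fun ω hω => ?_)
    have h7 : opn W ω ∈ g.C1 := by
      obtain ⟨u, hu, v, hv, h8⟩ := hω
      refine ⟨u, ?_, v, ?_, rtg_mono (fun s hs => ⟨hs.1, Finset.mem_coe.2
        (Finset.mem_sdiff.1 (Finset.mem_coe.1 hs.2)).1⟩) h8⟩
      · rcases hu with hu | ⟨s, -, h9, -⟩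
        · exact hu
        · exact h9.elim
      · rcases hv with hv | ⟨s, -, h9, -⟩
        · exact hv
        · exact h9.elim
    have h8 := g.det1 h7
    rw [K1, Kc_opn] at h8
    exact h8
  have hgood : ∀ S, Good (cf D η S) := fun S => good_cf D hη S
  -- step 2
  have e2 : c0 * c0 ≤ Pr Q D η {ω | g.P2 (Kc g.A2 (g.Z2 \ W) ω)} := by
    refine (mul_le_mul_of_nonneg_left e1 h0).trans
      (step_of hQ hη g.P1 (fun K => {ω | opn W ω ∈ g.C2 K}) (fun ω l1 l2 => ?_)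
        (fun S hS hK => h2.trans (cross_frozen hQ hQ1 ET_sub EB_sub
          (fun _ _ _ => Or.inl trivial) w2 (sD t2) (hgood S))))
    have h5 := g.det2 (ω := opn W ω) (by rw [K1, Kc_opn]; exact l1) (by rw [K1, Kc_opn]; exact l2)
    rw [K2, Kc_opn] at h5
    exact h5
  -- step 3
  have e3 : c0 * (c0 * c0) ≤ Pr Q D η {ω | g.P3 (Kc g.A3 (g.Z3 \ W) ω)} := by
    refine (mul_le_mul_of_nonneg_left e2 h0).trans
      (step_of hQ hη g.P2 (fun K => {ω | opn W ω ∈ g.C3 K}) (fun ω l1 l2 => ?_)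
        (fun S hS hK => h3.trans (cross_frozen hQ hQ1 EL_sub ER_sub
          (fun _ _ _ => Or.inl trivial) w3 (sD t3) (hgood S))))
    have h5 := g.det3 (ω := opn W ω) (by rw [K2, Kc_opn]; exact l1) (by rw [K2, Kc_opn]; exact l2)
    rw [K3, Kc_opn] at h5
    exact h5
  -- step 4
  have e4 : c0 * (c0 * (c0 * c0)) ≤ Pr Q D η {ω | g.P4 (g.K4 (opn W ω))} := by
    refine (mul_le_mul_of_nonneg_left e3 h0).trans
      (step_of hQ hη g.P3 (fun K => {ω | opn W ω ∈ g.C4 K}) (fun ω l1 l2 => ?_)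
        (fun S hS hK => h4.trans (cross_frozen hQ hQ1 ET_sub EB_sub
          (fun s hs hsT => ?_) w4 (sD t4) (hgood S))))
    · exact g.det4 (ω := opn W ω) (by rw [K3, Kc_opn]; exact l1)
        (by rw [K3, Kc_opn]; exact l2)
    · obtain ⟨x, hx, n1, n2, n3, n4⟩ := hsT
      rw [← Kc_opn] at hx hK
      obtain ⟨m1, m2, m3, m4⟩ := g.K3_mem (ω := opn W (cf D η S)) hx
      have hx' := hK x hx
      rw [mem_Rsq] at hs
      by_contra hc
      exact hx' ⟨by omega, m2, by omega, by omega⟩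
  calc c0 ^ 4 = c0 * (c0 * (c0 * c0)) := by ring
    _ ≤ _ := e4

end Geo

end Vale.Agent.P167.H906
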