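import Vale.Agent.P145.FB.Bond

/-!
# P167: winding numbers modulo 2 on the rotated square lattice

A chain is a finitely supported function on the squares with values in `ZMod 2`. `chn`: a path of even
sites gives a chain. `ray_step`: the number of the squares of a cycle on the horizontal ray from an odd
site does not change along a dual path which does not use squares of the cycle. `T_right` and its
versions for the other directions: a dual path from the side `p` to `q` cannot cross the cycle which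
consists of a path `ρ` on one side of `q` and of a path `σ` on the other side.
-/

set_option autoImplicit false

namespace Vale.Agent.P167.H906

open Relation (ReflTransGen)
open Vale.Agent.P145.FB (PStep)

/-- Chains modulo 2. -/
abbrev Chn := (ℤ × ℤ) →₀ ZMod 2

/-- The number of the squares in the row `j` to the right of `m`. -/
noncomputable def ray (f : Chn) (j m : ℤ) : ZMod 2 :=
  f.sum fun s c => if s.2 = j ∧ m ≤ s.1 then c else 0

/-- The number of the squares in the row `j`. -/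
noncomputable def tot (f : Chn) (j : ℤ) : ZMod 2 :=
  f.sum fun s c => if s.2 = j then c else 0

/-- The number of the squares around `z`. -/
noncomputable def deg (f : Chn) (z : ℤ × ℤ) : ZMod 2 :=
  f (z.1, z.2) + f (z.1 - 1, z.2) + f (z.1, z.2 - 1) + f (z.1 - 1, z.2 - 1)

theorem ray_add (f g : Chn) (j m : ℤ) : ray (f + g) j m = ray f j m + ray g j m := by
  unfold ray
  refine Finsupp.sum_add_index' (fun _ => by simp) fun _ _ _ => ?_
  split_ifs <;> simp

theorem tot_add (f g : Chn) (j : ℤ) : tot (f + g) j = tot f j + tot g j := by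
  unfold tot
  refine Finsupp.sum_add_index' (fun _ => by simp) fun _ _ _ => ?_
  split_ifs <;> simp

theorem deg_add (f g : Chn) (z : ℤ × ℤ) : deg (f + g) z = deg f z + deg g z := by
  simp only [deg, Finsupp.add_apply]
  ring

theorem ray_single (s : ℤ × ℤ) (c : ZMod 2) (j m : ℤ) :
    ray (Finsupp.single s c) j m = if s.2 = j ∧ m ≤ s.1 then c else 0 := by
  unfold ray
  exact Finsupp.sum_single_index (by simp)

theorem tot_single (s : ℤ × ℤ) (c : ZMod 2) (j : ℤ) :
    tot (Finsupp.single s c) j = if s.2 = j then c else 0 := by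
  unfold tot
  exact Finsupp.sum_single_index (by simp)

theorem ray_zero (j m : ℤ) : ray 0 j m = 0 := Finsupp.sum_zero_index

theorem tot_zero (j : ℤ) : tot 0 j = 0 := Finsupp.sum_zero_index

theorem ray_eq_zero {f : Chn} {j m : ℤ} (h : ∀ s ∈ f.support, s.2 = j → s.1 < m) :
    ray f j m = 0 := by
  unfold ray Finsupp.sum
  refine Finset.sum_eq_zero fun s hs => if_neg ?_
  rintro ⟨h1, h2⟩
  have := h s hs h1
  omega

theorem ray_eq_tot {f : Chn} {j m : ℤ} (h : ∀ s ∈ f.support, s.2 = j → m ≤ s.1) :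
    ray f j m = tot f j := by
  unfold ray tot Finsupp.sum
  refine Finset.sum_congr rfl fun s hs => ?_
  beta_reduce
  by_cases h1 : s.2 = j
  · rw [if_pos ⟨h1, h s hs h1⟩, if_pos h1]
  · rw [if_neg (fun h => h1 h.1), if_neg h1]

theorem ray_rec (f : Chn) (j m : ℤ) : ray f j m = f (m, j) + ray f j (m + 1) := by
  induction f using Finsupp.induction_linear with
  | zero => simp [ray_zero]
  | add f g hf hg =>
    rw [ray_add, ray_add, hf, hg, Finsupp.add_apply]
    ring
  | single s c =>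
    rw [ray_single, ray_single, Finsupp.single_apply]
    obtain ⟨s1, s2⟩ := s
    simp only [Prod.mk.injEq]
    by_cases h1 : s2 = j
    · by_cases h2 : s1 = m
      · rw [if_pos ⟨h1, by omega⟩, if_pos ⟨h2, h1⟩, if_neg (by omega), add_zero]
      · by_cases h3 : m ≤ s1
        · rw [if_pos ⟨h1, h3⟩, if_neg (fun h => h2 h.1), if_pos ⟨h1, by omega⟩, zero_add]
        · rw [if_neg (fun h => h3 h.2), if_neg (fun h => h2 h.1), if_neg (by omega), zero_add]
    · rw [if_neg (fun h => h1 h.1), if_neg (fun h => h1 h.2), if_neg (fun h => h1 h.1), zero_add]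

/-- A cycle: even number of squares around every even site. -/
def Cyc (f : Chn) : Prop := ∀ z : ℤ × ℤ, Even (z.1 + z.2) → deg f z = 0

theorem two_zero (x : ZMod 2) : x + x = 0 := CharTwo.add_self_eq_zero x

theorem ray_pair {f : Chn} (hf : Cyc f) {j m : ℤ} (hm : Even (m + j)) :
    ray f j m + ray f (j + 1) m = 0 := by
  obtain ⟨M, hM⟩ : ∃ M : ℤ, ∀ s ∈ f.support, s.1 < M := by
    obtain ⟨M, hM⟩ := (f.support.image Prod.fst).bddAbove
    exact ⟨M + 1, fun s hs => by
      have := hM (Finset.mem_coe.2 (Finset.mem_image_of_mem _ hs))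
      omega⟩
  have key : ∀ n : ℕ, ∀ m : ℤ, Even (m + j) → M ≤ m + 2 * n →
      ray f j m + ray f (j + 1) m = 0 := by
    intro n
    induction n with
    | zero =>
      intro m _ h
      rw [ray_eq_zero fun s hs _ => ?_, ray_eq_zero fun s hs _ => ?_, add_zero]
      · have := hM s hs
        push_cast at h
        omega
      · have := hM s hs
        push_cast at h
        omega
    | succ n ih =>
      intro m hm h
      have h1 := ih (m + 2) (by rw [Int.even_iff] at *; omega) (by push_cast at *; omega)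
      have h2 := hf (m + 1, j + 1) (by rw [Int.even_iff] at *; simp only; omega)
      simp only [deg, add_sub_cancel_right] at h2
      rw [ray_rec f j m, ray_rec f j (m + 1), ray_rec f (j + 1) m, ray_rec f (j + 1) (m + 1)]
      have e : m + 1 + 1 = m + 2 := by ring
      rw [e]
      calc _ = (f (m + 1, j + 1) + f (m, j + 1) + f (m + 1, j) + f (m, j)) +
          (ray f j (m + 2) + ray f (j + 1) (m + 2)) := by ring
        _ = 0 := by rw [h1, h2, add_zero]
  obtain ⟨n, hn⟩ := Int.toNat_of_nonneg (a := max 0 (M - m)) (le_max_left _ _) ▸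
    (⟨(max 0 (M - m)).toNat, rfl⟩ : ∃ n : ℕ, n = (max 0 (M - m)).toNat)
  have h1 : ((max 0 (M - m)).toNat : ℤ) = max 0 (M - m) := Int.toNat_of_nonneg (le_max_left _ _)
  exact key (max 0 (M - m)).toNat m hm (by rw [h1]; omega)

/-- The parity on the ray does not change when a square outside of the cycle is crossed. -/
theorem ray_step {f : Chn} (hf : Cyc f) {F : Set (ℤ × ℤ)} {p p' : ℤ × ℤ} (hp : Odd (p.1 + p.2))
    (h : PStep F p p') (hF : ∀ s ∈ F, f s = 0) : ray f p'.2 p'.1 = ray f p.2 p.1 := by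
  -- one direction
  have key : ∀ p p' : ℤ × ℤ, Odd (p.1 + p.2) → p'.1 = p.1 + 1 → PStep F p p' →
      ray f p'.2 p'.1 = ray f p.2 p.1 := by
    intro p p' hp h1 h
    obtain ⟨p1, p2⟩ := p
    obtain ⟨p1', p2'⟩ := p'
    simp only at h1 hp ⊢
    subst h1
    obtain ⟨-, h2, h3⟩ := h
    simp only at h2 h3
    have h4 := hF _ h3
    have e1 : min p1 (p1 + 1) = p1 := by omega
    rw [e1] at h4
    rcases h2 with h2 | h2
    · subst h2
      have e2 : min p2 (p2 + 1) = p2 := by omega
      rw [e2] at h4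
      have h5 := ray_pair hf (j := p2) (m := p1 + 1)
        (by rw [Int.odd_iff] at hp; rw [Int.even_iff]; omega)
      rw [ray_rec f p2 p1, h4, zero_add]
      calc _ = (ray f p2 (p1 + 1) + ray f p2 (p1 + 1)) + ray f (p2 + 1) (p1 + 1) := by
            rw [two_zero, zero_add]
        _ = ray f p2 (p1 + 1) + (ray f p2 (p1 + 1) + ray f (p2 + 1) (p1 + 1)) := by ring
        _ = _ := by rw [h5, add_zero]
    · subst h2
      have e2 : min p2 (p2 - 1) = p2 - 1 := by omega
      rw [e2] at h4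
      have h5 := ray_pair hf (j := p2 - 1) (m := p1)
        (by rw [Int.odd_iff] at hp; rw [Int.even_iff]; omega)
      rw [sub_add_cancel] at h5
      rw [ray_rec f (p2 - 1) p1, h4, zero_add] at h5
      calc _ = ray f (p2 - 1) (p1 + 1) + (ray f p2 p1 + ray f p2 p1) := by
            rw [two_zero, add_zero]
        _ = (ray f (p2 - 1) (p1 + 1) + ray f p2 p1) + ray f p2 p1 := by ring
        _ = _ := by rw [h5, zero_add]
  rcases h.1 with h1 | h1
  · exact key p p' hp h1 h
  · refine (key p' p ?_ (by omega) h.symm).symm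
    have h2 := h.2.1
    rw [Int.odd_iff] at *
    omega

theorem odd_rtg {F : Set (ℤ × ℤ)} {p q : ℤ × ℤ} (hp : Odd (p.1 + p.2))
    (h : ReflTransGen (PStep F) p q) : Odd (q.1 + q.2) := by
  induction h with
  | refl => exact hp
  | @tail x y _ h1 ih =>
    have h2 := h1.1
    have h3 := h1.2.1
    rw [Int.odd_iff] at *
    omega

theorem ray_rtg {f : Chn} (hf : Cyc f) {F : Set (ℤ × ℤ)} {p q : ℤ × ℤ} (hp : Odd (p.1 + p.2))
    (h : ReflTransGen (PStep F) p q) (hF : ∀ s ∈ F, f s = 0) :
    ray f q.2 q.1 = ray f p.2 p.1 := by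
  induction h with
  | refl => rfl
  | @tail x y hx h1 ih => exact (ray_step hf (odd_rtg hp hx) h1 hF).trans ih

/-- A path of even sites gives a chain. -/
theorem chn {F : Set (ℤ × ℤ)} {u v : ℤ × ℤ} (hu : Even (u.1 + u.2))
    (h : ReflTransGen (PStep F) u v) : ∃ f : Chn, (∀ s ∈ f.support, s ∈ F) ∧
      (∀ z : ℤ × ℤ, Even (z.1 + z.2) →
        deg f z = (if z = u then 1 else 0) + (if z = v then 1 else 0)) ∧
      (∀ j : ℤ, tot f j = (if j < u.2 then 1 else 0) + (if j < v.2 then 1 else 0)) ∧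
      Even (v.1 + v.2) := by
  induction h with
  | refl =>
    refine ⟨0, fun s hs => absurd hs (by simp), fun z _ => ?_, fun j => ?_, hu⟩
    · rw [two_zero]
      simp [deg]
    · rw [two_zero, tot_zero]
  | @tail v w _ h1 ih =>
    obtain ⟨f, g1, g2, g3, g4⟩ := ih
    obtain ⟨k1, k2, k3⟩ := h1
    refine ⟨f + Finsupp.single (min v.1 w.1, min v.2 w.2) 1, ?_, ?_, ?_, ?_⟩
    · intro s hs
      rcases Finset.mem_union.1 (Finsupp.support_add hs) with h | h
      · exact g1 s h
      · have := Finset.mem_singleton.1 (Finsupp.support_single_subset h)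
        rw [this]
        exact k3
    · intro z hz
      rw [deg_add, g2 z hz]
      have e : deg (Finsupp.single (min v.1 w.1, min v.2 w.2) (1 : ZMod 2)) z =
          (if z = v then 1 else 0) + (if z = w then 1 else 0) := by
        obtain ⟨v1, v2⟩ := v
        obtain ⟨w1, w2⟩ := w
        obtain ⟨z1, z2⟩ := z
        simp only [deg, Finsupp.single_apply, Prod.mk.injEq] at *
        rw [Int.even_iff] at g4 hz
        rcases k1 with k1 | k1 <;> rcases k2 with k2 | k2 <;> subst k1 <;> subst k2 <;>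
          simp only [min_def] <;> (repeat' split_ifs) <;>
          first | rfl | (exfalso; omega)
      rw [e]
      calc _ = (if z = u then (1 : ZMod 2) else 0) + (if z = w then 1 else 0) +
          ((if z = v then 1 else 0) + (if z = v then 1 else 0)) := by ring
        _ = _ := by rw [two_zero, add_zero]
    · intro j
      rw [tot_add, g3, tot_single]
      have e : (if (min v.1 w.1, min v.2 w.2).2 = j then (1 : ZMod 2) else 0) =
          (if j < v.2 then 1 else 0) + (if j < w.2 then 1 else 0) := by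
        simp only
        rcases k2 with k2 | k2
        · by_cases h1 : min v.2 w.2 = j
          · rw [if_pos h1, if_neg (by omega), if_pos (by omega), zero_add]
          · rw [if_neg h1]
            by_cases h2 : j < v.2
            · rw [if_pos h2, if_pos (by omega), two_zero]
            · rw [if_neg h2, if_neg (by omega), add_zero]
        · by_cases h1 : min v.2 w.2 = j
          · rw [if_pos h1, if_pos (by omega), if_neg (by omega), add_zero]
          · rw [if_neg h1]
            by_cases h2 : j < v.2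
            · rw [if_pos h2, if_pos (by omega), two_zero]
            · rw [if_neg h2, if_neg (by omega), add_zero]
      rw [e]
      calc _ = (if j < u.2 then (1 : ZMod 2) else 0) + (if j < w.2 then 1 else 0) +
          ((if j < v.2 then 1 else 0) + (if j < v.2 then 1 else 0)) := by ring
        _ = _ := by rw [two_zero, add_zero]
    · rw [Int.even_iff] at *
      omega

/-- **Separation.** `ρ` and `σ` join `u` and `v`; in the row of `q` the squares of `ρ` are to the right
of `q`, the squares of `σ` to the left of `q`; `u` is above this row and `v` is below. Then a dual path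
which does not use squares of `ρ` and `σ` does not join `q` to a site `p` to the right of all their
squares. -/
theorem T_right {O1 O2 P : Set (ℤ × ℤ)} {u v p q : ℤ × ℤ} (hu : Even (u.1 + u.2))
    (hp : Odd (p.1 + p.2)) (hρ : ReflTransGen (PStep O1) u v) (hσ : ReflTransGen (PStep O2) u v)
    (hπ : ReflTransGen (PStep P) p q) (h1 : ∀ s ∈ P, s ∉ O1) (h2 : ∀ s ∈ P, s ∉ O2)
    (hq1 : ∀ s ∈ O1, s.2 = q.2 → q.1 ≤ s.1) (hq2 : ∀ s ∈ O2, s.2 = q.2 → s.1 < q.1)
    (hp1 : ∀ s ∈ O1, s.2 = p.2 → s.1 < p.1) (hp2 : ∀ s ∈ O2, s.2 = p.2 → s.1 < p.1)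
    (hu2 : q.2 < u.2) (hv2 : v.2 ≤ q.2) : False := by
  obtain ⟨f, f1, f2, f3, -⟩ := chn hu hρ
  obtain ⟨g, g1, g2, g3, -⟩ := chn hu hσ
  have hc : Cyc (f + g) := by
    intro z hz
    rw [deg_add, f2 z hz, g2 z hz, two_zero]
  have e1 := ray_rtg hc hp hπ fun s hs => by
    rw [Finsupp.add_apply, Finsupp.notMem_support_iff.1 fun h => h1 s hs (f1 s h),
      Finsupp.notMem_support_iff.1 fun h => h2 s hs (g1 s h), add_zero]
  rw [ray_add, ray_add, ray_eq_tot fun s hs => hq1 s (f1 s hs),
    ray_eq_zero fun s hs => hq2 s (g1 s hs), ray_eq_zero fun s hs => hp1 s (f1 s hs),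
    ray_eq_zero fun s hs => hp2 s (g1 s hs), f3, if_pos hu2, if_neg (by omega), add_zero, add_zero,
    add_zero] at e1
  exact one_ne_zero e1

/-! ### Other directions -/

/-- Images of paths. -/
theorem rtg_map {F G : Set (ℤ × ℤ)} {φ : ℤ × ℤ → ℤ × ℤ} (h : ∀ x y, PStep F x y →
    PStep G (φ x) (φ y)) {u v : ℤ × ℤ} (huv : ReflTransGen (PStep F) u v) :
    ReflTransGen (PStep G) (φ u) (φ v) := by
  induction huv with
  | refl => exact ReflTransGen.refl
  | tail _ h1 ih => exact ih.tail (h _ _ h1)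

/-- The reflection of the squares at the vertical axis. -/
def rx (s : ℤ × ℤ) : ℤ × ℤ := (-1 - s.1, s.2)

theorem rx_rx (s : ℤ × ℤ) : rx (rx s) = s := by
  unfold rx
  ext <;> simp

theorem rtg_rx {F : Set (ℤ × ℤ)} {u v : ℤ × ℤ} (h : ReflTransGen (PStep F) u v) :
    ReflTransGen (PStep (rx ⁻¹' F)) (-u.1, u.2) (-v.1, v.2) := by
  refine rtg_map (φ := fun z => (-z.1, z.2)) (fun x y hxy => ?_) h
  obtain ⟨k1, k2, k3⟩ := hxy
  refine ⟨by simp only; omega, k2, ?_⟩
  show rx (min (-x.1) (-y.1), min x.2 y.2) ∈ F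
  have : rx (min (-x.1) (-y.1), min x.2 y.2) = (min x.1 y.1, min x.2 y.2) := by
    unfold rx
    ext
    · simp only; omega
    · rfl
  rwa [this]

theorem rtg_sw {F : Set (ℤ × ℤ)} {u v : ℤ × ℤ} (h : ReflTransGen (PStep F) u v) :
    ReflTransGen (PStep (Prod.swap ⁻¹' F)) u.swap v.swap := by
  refine rtg_map (φ := Prod.swap) (fun x y hxy => ?_) h
  obtain ⟨k1, k2, k3⟩ := hxy
  exact ⟨k2, k1, k3⟩

/-- `T_right` for the direction left. -/
theorem T_left {O1 O2 P : Set (ℤ × ℤ)} {u v p q : ℤ × ℤ} (hu : Even (u.1 + u.2))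
    (hp : Odd (p.1 + p.2)) (hρ : ReflTransGen (PStep O1) u v) (hσ : ReflTransGen (PStep O2) u v)
    (hπ : ReflTransGen (PStep P) p q) (h1 : ∀ s ∈ P, s ∉ O1) (h2 : ∀ s ∈ P, s ∉ O2)
    (hq1 : ∀ s ∈ O1, s.2 = q.2 → s.1 < q.1) (hq2 : ∀ s ∈ O2, s.2 = q.2 → q.1 ≤ s.1)
    (hp1 : ∀ s ∈ O1, s.2 = p.2 → p.1 ≤ s.1) (hp2 : ∀ s ∈ O2, s.2 = p.2 → p.1 ≤ s.1)
    (hu2 : q.2 < u.2) (hv2 : v.2 ≤ q.2) : False := by
  refine T_right (u := (-u.1, u.2)) (v := (-v.1, v.2)) (p := (-p.1, p.2)) (q := (-q.1, q.2))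
    ?_ ?_ (rtg_rx hρ) (rtg_rx hσ) (rtg_rx hπ) (fun s hs => h1 _ hs) (fun s hs => h2 _ hs)
    (fun s hs h => ?_) (fun s hs h => ?_) (fun s hs h => ?_) (fun s hs h => ?_) hu2 hv2
  · rw [Int.even_iff] at *; simp only; omega
  · rw [Int.odd_iff] at *; simp only; omega
  · have := hq1 _ hs h
    simp only [rx] at this ⊢
    omega
  · have := hq2 _ hs h
    simp only [rx] at this ⊢
    omega
  · have := hp1 _ hs h
    simp only [rx] at this ⊢
    omega
  · have := hp2 _ hs h
    simp only [rx] at this ⊢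
    omega

/-- `T_right` for the direction up. -/
theorem T_up {O1 O2 P : Set (ℤ × ℤ)} {u v p q : ℤ × ℤ} (hu : Even (u.1 + u.2))
    (hp : Odd (p.1 + p.2)) (hρ : ReflTransGen (PStep O1) u v) (hσ : ReflTransGen (PStep O2) u v)
    (hπ : ReflTransGen (PStep P) p q) (h1 : ∀ s ∈ P, s ∉ O1) (h2 : ∀ s ∈ P, s ∉ O2)
    (hq1 : ∀ s ∈ O1, s.1 = q.1 → q.2 ≤ s.2) (hq2 : ∀ s ∈ O2, s.1 = q.1 → s.2 < q.2)
    (hp1 : ∀ s ∈ O1, s.1 = p.1 → s.2 < p.2) (hp2 : ∀ s ∈ O2, s.1 = p.1 → s.2 < p.2)
    (hu2 : q.1 < u.1) (hv2 : v.1 ≤ q.1) : False := by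
  refine T_right (u := u.swap) (v := v.swap) (p := p.swap) (q := q.swap)
    ?_ ?_ (rtg_sw hρ) (rtg_sw hσ) (rtg_sw hπ) (fun s hs => h1 _ hs) (fun s hs => h2 _ hs)
    (fun s hs h => hq1 _ hs h) (fun s hs h => hq2 _ hs h) (fun s hs h => hp1 _ hs h)
    (fun s hs h => hp2 _ hs h) hu2 hv2
  · rw [Int.even_iff] at *; simp only [Prod.fst_swap, Prod.snd_swap]; omega
  · rw [Int.odd_iff] at *; simp only [Prod.fst_swap, Prod.snd_swap]; omega

/-- `T_right` for the direction down. -/
theorem T_down {O1 O2 P : Set (ℤ × ℤ)} {u v p q : ℤ × ℤ} (hu : Even (u.1 + u.2))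
    (hp : Odd (p.1 + p.2)) (hρ : ReflTransGen (PStep O1) u v) (hσ : ReflTransGen (PStep O2) u v)
    (hπ : ReflTransGen (PStep P) p q) (h1 : ∀ s ∈ P, s ∉ O1) (h2 : ∀ s ∈ P, s ∉ O2)
    (hq1 : ∀ s ∈ O1, s.1 = q.1 → s.2 < q.2) (hq2 : ∀ s ∈ O2, s.1 = q.1 → q.2 ≤ s.2)
    (hp1 : ∀ s ∈ O1, s.1 = p.1 → p.2 ≤ s.2) (hp2 : ∀ s ∈ O2, s.1 = p.1 → p.2 ≤ s.2)
    (hu2 : q.1 < u.1) (hv2 : v.1 ≤ q.1) : False := by
  refine T_left (u := u.swap) (v := v.swap) (p := p.swap) (q := q.swap)
    ?_ ?_ (rtg_sw hρ) (rtg_sw hσ) (rtg_sw hπ) (fun s hs => h1 _ hs) (fun s hs => h2 _ hs)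
    (fun s hs h => hq1 _ hs h) (fun s hs h => hq2 _ hs h) (fun s hs h => hp1 _ hs h)
    (fun s hs h => hp2 _ hs h) hu2 hv2
  · rw [Int.even_iff] at *; simp only [Prod.fst_swap, Prod.snd_swap]; omega
  · rw [Int.odd_iff] at *; simp only [Prod.fst_swap, Prod.snd_swap]; omega

end Vale.Agent.P167.H906
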