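import Vale.Agent.P167.H906.Halo
import Vale.Agent.P167.H906.Wind
import Vale.Agent.P167.H262.R0

/-!
# P167: peeling an annulus strip by strip

The annulus between `[a, b] × [c, d]` and `[a', b'] × [c', d']` is cut into four strips. `K k` is the
set of the odd sites joined to the first `k` sides by closed squares off the inner region number `k`.
`det1`, ..., `det4`: if `K k` does not reach the inner region then an open crossing of the part of the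
next strip which does not touch `K k` prevents `K (k + 1)` from reaching the next inner region.
-/

set_option autoImplicit false

namespace Vale.Agent.P167.H906

open Finset
open Relation (ReflTransGen)
open Vale.Agent.P145.FB (PStep PConn)
open Vale.Agent.P167 Vale.Agent.P167.FK Vale.Agent.P167.H262

open scoped Classical in
/-- The squares of `S` which touch `K`. -/
noncomputable def Lc (S : Finset (ℤ × ℤ)) (K : Set (ℤ × ℤ)) : Finset (ℤ × ℤ) :=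
  S.filter fun s => s ∈ Tc K

theorem mem_Lc {S : Finset (ℤ × ℤ)} {K : Set (ℤ × ℤ)} {s : ℤ × ℤ} :
    s ∈ Lc S K ↔ s ∈ S ∧ s ∈ Tc K := by
  classical
  unfold Lc
  rw [Finset.mem_filter]

/-- `E` and the even corners of the squares of `S` with the property `P` which touch `K`. -/
def Xc (K : Set (ℤ × ℤ)) (S : Finset (ℤ × ℤ)) (P : ℤ × ℤ → Prop) (E : Set (ℤ × ℤ)) :
    Set (ℤ × ℤ) :=
  E ∪ {z | ∃ s ∈ S, P s ∧ s ∈ Tc K ∧ H816.Co z s}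

/-- The even sites of the left side. -/
def EL (a b c d : ℤ) : Set (ℤ × ℤ) := {z | Even (z.1 + z.2) ∧ z ∈ Rsi a b c d ∧ z.1 = a}

/-- The even sites of the right side. -/
def ER (a b c d : ℤ) : Set (ℤ × ℤ) := {z | Even (z.1 + z.2) ∧ z ∈ Rsi a b c d ∧ z.1 = b}

/-- The even sites of the bottom. -/
def EB (a b c d : ℤ) : Set (ℤ × ℤ) := {z | Even (z.1 + z.2) ∧ z ∈ Rsi a b c d ∧ z.2 = c}

/-- The even sites of the top. -/
def ET (a b c d : ℤ) : Set (ℤ × ℤ) := {z | Even (z.1 + z.2) ∧ z ∈ Rsi a b c d ∧ z.2 = d}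

variable {A A' : Set (ℤ × ℤ)} {Z Z' : Finset (ℤ × ℤ)} {ω ω' : Cfg}

theorem Kc_mem {a b c d : ℤ} (hA : ∀ p ∈ A, p ∈ Rsi a b c d) (hZ : Z ⊆ Rsq a b c d) {κ : ℤ × ℤ}
    (h : κ ∈ Kc A Z ω) : κ ∈ Rsi a b c d := by
  obtain ⟨p, hp, ho, h⟩ := h
  induction h with
  | refl => exact hA p hp
  | @tail x y _ hxy ih =>
    obtain ⟨k1, k2, k3, k4⟩ := ih
    obtain ⟨h1, h2, h3, h4⟩ := hxy
    have h5 := mem_Rsq.1 (hZ (Finset.mem_coe.1 h4))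
    simp only at h5
    exact ⟨by omega, by omega, by omega, by omega⟩

/-- A path of `Kc A' Z'` to the inner region `[n1, n2] × [n3, n4]`, without the squares which touch
`Kc A Z`, continued to `q`. -/
theorem reach {S : Finset (ℤ × ℤ)} {a b c d a1 b1 c1 d1 n1 n2 n3 n4 : ℤ} (hn : n1 < n2)
    (hn' : n3 < n4)
    (hZ : ∀ x ∈ Kc A Z ω, ∀ s ∈ Z', s.1 ≤ x.1 → x.1 ≤ s.1 + 1 → s.2 ≤ x.2 → x.2 ≤ s.2 + 1 → s ∈ Z)
    (hKN : ∀ x ∈ Kc A Z ω, x ∉ Rsi n1 n2 n3 n4) (hZ' : Z' ⊆ Rsq a b c d)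
    (hN : Rsq n1 n2 n3 n4 ⊆ Rsq a b c d) (hS : ∀ s ∈ S, s ∉ Rsq n1 n2 n3 n4) {κ q : ℤ × ℤ}
    (hκ : κ ∈ Kc A' Z' ω) (hκN : κ ∈ Rsi n1 n2 n3 n4) (hq : q ∈ Rsi n1 n2 n3 n4)
    (hqo : Odd (q.1 + q.2)) :
    ∃ p ∈ A', p ∉ Kc A Z ω ∧ Odd (p.1 + p.2) ∧ ∃ P : Set (ℤ × ℤ),
      (∀ s ∈ P, s ∉ op ω ∩ ↑(S \ Lc S (Kc A Z ω))) ∧
      (∀ s ∈ P, s ∉ Ob a b c d a1 b1 c1 d1 (Kc A Z ω)) ∧ ReflTransGen (PStep P) p q := by
  have hκo := Kc_odd hκ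
  obtain ⟨p, hp, ho, h⟩ := hκ
  obtain ⟨g1, g2⟩ := cut_path (K := Kc A Z ω) (F := (op ω)ᶜ ∩ ↑Z') (fun x hx => Kc_odd hx)
    (fun x hx y hxy => by
      refine Kc_step hx ⟨hxy.1, hxy.2.1, hxy.2.2.1, ?_⟩
      obtain ⟨h1, h2, -, h3⟩ := hxy
      exact Finset.mem_coe.2 (hZ x hx _ (Finset.mem_coe.1 h3) (by simp only; omega)
        (by simp only; omega) (by simp only; omega) (by simp only; omega))) ho
    (fun hκK => hKN κ hκK hκN) h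
  refine ⟨p, hp, g1, ho, (((op ω)ᶜ ∩ ↑Z') \ Tc (Kc A Z ω)) ∪ ↑(Rsq n1 n2 n3 n4), ?_, ?_, ?_⟩
  · rintro s (hs | hs) ⟨h1, h2⟩
    · exact hs.1.1 h1
    · exact hS s (Finset.mem_sdiff.1 (Finset.mem_coe.1 h2)).1 (Finset.mem_coe.1 hs)
  · rintro s (hs | hs) ⟨-, h2 | h2⟩
    · exact h2 (hZ' (Finset.mem_coe.1 hs.1.2))
    · exact hs.2 h2
    · exact h2 (hN (Finset.mem_coe.1 hs))
    · obtain ⟨x, hx, h3, h4, h5, h6⟩ := h2
      have h7 := mem_Rsq.1 (Finset.mem_coe.1 hs)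
      exact hKN x hx ⟨by omega, by omega, by omega, by omega⟩
  · refine (rtg_mono Set.subset_union_left g2).trans
      (rect_conn hn hn' Set.subset_union_right hκN hq ?_)
    rw [Int.odd_iff] at *
    omega

theorem Ct_end {a b c d a1 b1 c1 d1 : ℤ} {K : Set (ℤ × ℤ)} {z : ℤ × ℤ} (he : Even (z.1 + z.2))
    (h : Fr a b c d a1 b1 c1 d1 z) : Ct a b c d a1 b1 c1 d1 K z := ⟨he, h.1, Or.inl h⟩

/-- Corners of a square. -/
theorem co_bd {z s : ℤ × ℤ} (h : H816.Co z s) :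
    s.1 ≤ z.1 ∧ z.1 ≤ s.1 + 1 ∧ s.2 ≤ z.2 ∧ z.2 ≤ s.2 + 1 := by
  have he := h.even
  rw [H816.Co_iff he] at h
  simp only [H816.four, Finset.mem_insert, Finset.mem_singleton] at h
  rcases h with rfl | rfl | rfl | rfl <;> simp only <;> omega

/-! ### The annulus -/

/-- The sides of the boxes `[a, b] × [c, d]` and `[a', b'] × [c', d']`. -/
structure Geo where
  (a a' b' b c c' d' d : ℤ)
  ha : a < a'
  hm : a' + 2 ≤ b'
  hb : b' < b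
  hc : c < c'
  hk : c' < d'
  hd : d' < d

namespace Geo

variable (g : Geo)

/-- Top strip. -/
noncomputable def S1 : Finset (ℤ × ℤ) := Rsq g.a g.b g.d' g.d
/-- Left strip. -/
noncomputable def S2 : Finset (ℤ × ℤ) := Rsq g.a g.a' g.c g.d
/-- Bottom strip. -/
noncomputable def S3 : Finset (ℤ × ℤ) := Rsq g.a g.b g.c g.c'
/-- Right strip. -/
noncomputable def S4 : Finset (ℤ × ℤ) := Rsq g.b' g.b g.c g.d

/-- The box. -/
noncomputable def Bx : Finset (ℤ × ℤ) := Rsq g.a g.b g.c g.d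

/-- The squares of the box off the inner region. -/
noncomputable def Z1 : Finset (ℤ × ℤ) := g.Bx \ Rsq g.a g.b g.c g.d'
/-- The squares of the box off the inner region. -/
noncomputable def Z2 : Finset (ℤ × ℤ) := g.Bx \ Rsq g.a' g.b g.c g.d'
/-- The squares of the box off the inner region. -/
noncomputable def Z3 : Finset (ℤ × ℤ) := g.Bx \ Rsq g.a' g.b g.c' g.d'
/-- The squares of the box off the inner region. -/
noncomputable def Z4 : Finset (ℤ × ℤ) := g.Bx \ Rsq g.a' g.b' g.c' g.d'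

/-- The first side. -/
def A1 : Set (ℤ × ℤ) := {z | z ∈ Rsi g.a g.b g.c g.d ∧ z.2 = g.d}
/-- The first two sides. -/
def A2 : Set (ℤ × ℤ) := {z | z ∈ Rsi g.a g.b g.c g.d ∧ (z.2 = g.d ∨ z.1 = g.a)}
/-- The first three sides. -/
def A3 : Set (ℤ × ℤ) := {z | z ∈ Rsi g.a g.b g.c g.d ∧ (z.2 = g.d ∨ z.1 = g.a ∨ z.2 = g.c)}
/-- The four sides. -/
def A4 : Set (ℤ × ℤ) :=
  {z | z ∈ Rsi g.a g.b g.c g.d ∧ (z.2 = g.d ∨ z.1 = g.a ∨ z.2 = g.c ∨ z.1 = g.b)}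

/-- The clusters of the sides. -/
def K1 (ω : Cfg) : Set (ℤ × ℤ) := Kc g.A1 g.Z1 ω
/-- The clusters of the sides. -/
def K2 (ω : Cfg) : Set (ℤ × ℤ) := Kc g.A2 g.Z2 ω
/-- The clusters of the sides. -/
def K3 (ω : Cfg) : Set (ℤ × ℤ) := Kc g.A3 g.Z3 ω
/-- The clusters of the sides. -/
def K4 (ω : Cfg) : Set (ℤ × ℤ) := Kc g.A4 g.Z4 ω

/-- Off the inner region. -/
def P1 (K : Set (ℤ × ℤ)) : Prop := ∀ κ ∈ K, κ ∉ Rsi g.a g.b g.c g.d'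
/-- Off the inner region. -/
def P2 (K : Set (ℤ × ℤ)) : Prop := ∀ κ ∈ K, κ ∉ Rsi g.a' g.b g.c g.d'
/-- Off the inner region. -/
def P3 (K : Set (ℤ × ℤ)) : Prop := ∀ κ ∈ K, κ ∉ Rsi g.a' g.b g.c' g.d'
/-- Off the inner region. -/
def P4 (K : Set (ℤ × ℤ)) : Prop := ∀ κ ∈ K, κ ∉ Rsi g.a' g.b' g.c' g.d'

/-- The crossing of the top strip. -/
def C1 : Set Cfg := CI g.S1 (EL g.a g.b g.d' g.d) (ER g.a g.b g.d' g.d)

/-- The crossing of the rest of the left strip. -/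
def C2 (K : Set (ℤ × ℤ)) : Set Cfg := CI (g.S2 \ Lc g.S2 K)
  (Xc K g.S2 (fun _ => True) (ET g.a g.a' g.c g.d)) (Xc K g.S2 (fun _ => False) (EB g.a g.a' g.c g.d))

/-- The crossing of the rest of the bottom strip. -/
def C3 (K : Set (ℤ × ℤ)) : Set Cfg := CI (g.S3 \ Lc g.S3 K)
  (Xc K g.S3 (fun _ => True) (EL g.a g.b g.c g.c')) (Xc K g.S3 (fun _ => False) (ER g.a g.b g.c g.c'))

/-- The crossing of the rest of the right strip. -/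
def C4 (K : Set (ℤ × ℤ)) : Set Cfg := CI (g.S4 \ Lc g.S4 K)
  (Xc K g.S4 (fun s => g.d' ≤ s.2) (ET g.b' g.b g.c g.d))
  (Xc K g.S4 (fun s => s.2 < g.c') (EB g.b' g.b g.c g.d))

theorem K1_mem {κ : ℤ × ℤ} (h : κ ∈ g.K1 ω) : κ ∈ Rsi g.a g.b g.c g.d :=
  Kc_mem (fun _ hp => hp.1) Finset.sdiff_subset h

theorem K2_mem {κ : ℤ × ℤ} (h : κ ∈ g.K2 ω) : κ ∈ Rsi g.a g.b g.c g.d :=
  Kc_mem (fun _ hp => hp.1) Finset.sdiff_subset h

theorem K3_mem {κ : ℤ × ℤ} (h : κ ∈ g.K3 ω) : κ ∈ Rsi g.a g.b g.c g.d :=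
  Kc_mem (fun _ hp => hp.1) Finset.sdiff_subset h

/-- An odd site of the inner box. -/
theorem ex_q : ∃ q : ℤ × ℤ, Odd (q.1 + q.2) ∧ g.a' ≤ q.1 ∧ q.1 < g.b' ∧ g.c' ≤ q.2 ∧
    q.2 < g.d' := by
  have h1 := g.hm
  have h2 := g.hk
  by_cases h : Odd (g.a' + g.c')
  · exact ⟨(g.a', g.c'), h, le_refl _, by simp only; omega, le_refl _, h2⟩
  · refine ⟨(g.a' + 1, g.c'), ?_, by simp only; omega, by simp only; omega, le_refl _, h2⟩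
    rw [Int.odd_iff] at *
    simp only
    omega

theorem det1 (h : ω ∈ g.C1) : g.P1 (g.K1 ω) := by
  obtain ⟨h1, h2, h3, h4, h5, h6⟩ : g.a < g.a' ∧ g.a' + 2 ≤ g.b' ∧ g.b' < g.b ∧ g.c < g.c' ∧
    g.c' < g.d' ∧ g.d' < g.d := ⟨g.ha, g.hm, g.hb, g.hc, g.hk, g.hd⟩
  intro κ hκ hκN
  obtain ⟨u, ⟨hu1, hu2, hu3⟩, v, ⟨hv1, hv2, hv3⟩, hρ⟩ := h
  obtain ⟨u1, u2, u3, u4⟩ := hu2
  obtain ⟨v1, v2, v3, v4⟩ := hv2
  obtain ⟨q, q0, q1, q2, q3, q4⟩ := g.ex_q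
  have hem : ∀ x, x ∉ Kc (∅ : Set (ℤ × ℤ)) ∅ ω := by
    rintro x ⟨p, hp, -⟩
    exact hp
  obtain ⟨p, hpA, hpK, hpo, P, hP1, hP2, hπ⟩ := reach (A := ∅) (Z := ∅) (S := g.S1)
    (a := g.a) (b := g.b) (c := g.c) (d := g.d) (a1 := g.a - 1) (b1 := g.b + 1) (c1 := g.c - 1)
    (d1 := g.d) (n1 := g.a) (n2 := g.b) (n3 := g.c) (n4 := g.d') (by omega) (by omega)
    (fun x hx => absurd hx (hem x)) (fun x hx => absurd hx (hem x)) Finset.sdiff_subset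
    (fun s hs => by rw [mem_Rsq] at *; omega)
    (fun s hs => by rw [S1, mem_Rsq] at hs; rw [mem_Rsq]; omega) hκ hκN
    ⟨by omega, by omega, by omega, by omega⟩ q0
  have hp1 : p.2 = g.d := hpA.2
  have hσ := sigma (a := g.a) (b := g.b) (c := g.c) (d := g.d) (a1 := g.a - 1) (b1 := g.b + 1)
    (c1 := g.c - 1) (d1 := g.d) (A := ∅) (Z := ∅) (ω := ω) (u := u) (v := v) (by omega) (by omega)
    (by omega) (by omega) (by omega) (by omega) (by omega) (by omega) (Finset.empty_subset _)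
    (fun p hp => absurd hp (Set.notMem_empty p))
    (Ct_end hu1 ⟨⟨by omega, by omega, by omega, by omega⟩, by omega⟩)
    (Ct_end hv1 ⟨⟨by omega, by omega, by omega, by omega⟩, by omega⟩)
  have hρ' : ReflTransGen (PStep (op ω ∩ ↑(g.S1 \ Lc g.S1 (Kc ∅ ∅ ω)))) u v := by
    refine rtg_mono (fun s hs => ⟨hs.1, Finset.mem_coe.2 (Finset.mem_sdiff.2
      ⟨Finset.mem_coe.1 hs.2, fun h => ?_⟩)⟩) hρ
    obtain ⟨-, x, hx, -⟩ := mem_Lc.1 h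
    exact hem x hx
  have hO1 : ∀ s ∈ op ω ∩ ↑(g.S1 \ Lc g.S1 (Kc ∅ ∅ ω)), s ∈ g.S1 := fun s hs =>
    (Finset.mem_sdiff.1 (Finset.mem_coe.1 hs.2)).1
  have hO2 : ∀ s ∈ Ob g.a g.b g.c g.d (g.a - 1) (g.b + 1) (g.c - 1) g.d (Kc ∅ ∅ ω),
      s ∈ Rsq (g.a - 1) (g.b + 1) (g.c - 1) g.d ∧ s ∉ Rsq g.a g.b g.c g.d := by
    rintro s ⟨k1, k2 | ⟨x, hx, -⟩⟩
    · exact ⟨k1, k2⟩
    · exact absurd hx (hem x)
  refine T_up hv1 hpo (rtg_symm hρ') (rtg_symm hσ) hπ hP1 hP2 (fun s hs k => ?_)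
    (fun s hs k => ?_) (fun s hs k => ?_) (fun s hs k => ?_) (by omega) (by omega)
  · have := hO1 s hs
    rw [S1, mem_Rsq] at this
    omega
  · obtain ⟨k1, k2⟩ := hO2 s hs
    rw [mem_Rsq] at k1 k2
    omega
  · have := hO1 s hs
    rw [S1, mem_Rsq] at this
    omega
  · obtain ⟨k1, k2⟩ := hO2 s hs
    rw [mem_Rsq] at k1 k2
    omega

theorem det2 (hG : g.P1 (g.K1 ω)) (h : ω ∈ g.C2 (g.K1 ω)) : g.P2 (g.K2 ω) := by
  obtain ⟨h1, h2, h3, h4, h5, h6⟩ : g.a < g.a' ∧ g.a' + 2 ≤ g.b' ∧ g.b' < g.b ∧ g.c < g.c' ∧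
    g.c' < g.d' ∧ g.d' < g.d := ⟨g.ha, g.hm, g.hb, g.hc, g.hk, g.hd⟩
  intro κ hκ hκN
  have hG' : ∀ x ∈ g.K1 ω, g.d' < x.2 := by
    intro x hx
    obtain ⟨k1, k2, k3, k4⟩ := g.K1_mem hx
    by_contra hc
    exact hG x hx ⟨k1, k2, k3, by omega⟩
  obtain ⟨u, hu, v, hv, hρ⟩ := h
  obtain ⟨q, q0, q1, q2, q3, q4⟩ := g.ex_q
  obtain ⟨p, hpA, hpK, hpo, P, hP1, hP2, hπ⟩ := reach (A := g.A1) (Z := g.Z1) (S := g.S2)
    (a := g.a) (b := g.b) (c := g.c) (d := g.d) (a1 := g.a) (b1 := g.b + 1) (c1 := g.c - 1)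
    (d1 := g.d + 1) (n1 := g.a') (n2 := g.b) (n3 := g.c) (n4 := g.d') (by omega) (by omega)
    (fun x hx s hs k1 k2 k3 k4 => by
      have := hG' x hx
      simp only [Z1, Bx, Finset.mem_sdiff, mem_Rsq] at hs ⊢
      omega)
    (fun x hx hxN => by
      have := hG' x hx
      obtain ⟨k1, k2, k3, k4⟩ := hxN
      omega) Finset.sdiff_subset
    (fun s hs => by rw [mem_Rsq] at *; omega)
    (fun s hs => by rw [S2, mem_Rsq] at hs; rw [mem_Rsq]; omega) hκ hκN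
    ⟨by omega, by omega, by omega, by omega⟩ q0
  have hp1 : p.1 = g.a := by
    obtain ⟨k1, k2 | k2⟩ := hpA
    · exact absurd ⟨p, ⟨k1, k2⟩, hpo, ReflTransGen.refl⟩ hpK
    · exact k2
  have hct : ∀ z s : ℤ × ℤ, s ∈ g.S2 → s ∈ Tc (g.K1 ω) → H816.Co z s →
      Ct g.a g.b g.c g.d g.a (g.b + 1) (g.c - 1) (g.d + 1) (g.K1 ω) z ∧ g.d' ≤ z.2 := by
    intro z s hs hsT hz
    obtain ⟨k1, k2, k3, k4⟩ := co_bd hz
    rw [S2, mem_Rsq] at hs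
    refine ⟨Ct_of_Tc hsT hz ⟨by omega, by omega, by omega, by omega⟩, ?_⟩
    obtain ⟨x, hx, l1, l2, l3, l4⟩ := hsT
    have := hG' x hx
    omega
  have hu' : Ct g.a g.b g.c g.d g.a (g.b + 1) (g.c - 1) (g.d + 1) (g.K1 ω) u ∧ g.d' ≤ u.2 := by
    rcases hu with ⟨k1, ⟨k2, k3, k4, k5⟩, k6⟩ | ⟨s, hs, -, k2, k3⟩
    · exact ⟨Ct_end k1 ⟨⟨by omega, by omega, by omega, by omega⟩, by omega⟩, by omega⟩
    · exact hct u s hs k2 k3
  have hv' : Ct g.a g.b g.c g.d g.a (g.b + 1) (g.c - 1) (g.d + 1) (g.K1 ω) v ∧ v.2 = g.c := by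
    rcases hv with ⟨k1, ⟨k2, k3, k4, k5⟩, k6⟩ | ⟨s, hs, k2, -⟩
    · exact ⟨Ct_end k1 ⟨⟨by omega, by omega, by omega, by omega⟩, by omega⟩, k6⟩
    · exact absurd k2 id
  have hσ := sigma (a := g.a) (b := g.b) (c := g.c) (d := g.d) (a1 := g.a) (b1 := g.b + 1)
    (c1 := g.c - 1) (d1 := g.d + 1) (A := g.A1) (Z := g.Z1) (ω := ω) (u := u) (v := v) (by omega)
    (by omega) (by omega) (by omega) (by omega) (by omega) (by omega) (by omega)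
    Finset.sdiff_subset (fun p hp => ⟨hp.1, by have := hp.2; omega⟩) hu'.1 hv'.1
  have hO1 : ∀ s ∈ op ω ∩ ↑(g.S2 \ Lc g.S2 (g.K1 ω)), s ∈ g.S2 := fun s hs =>
    (Finset.mem_sdiff.1 (Finset.mem_coe.1 hs.2)).1
  have hO2 : ∀ s ∈ Ob g.a g.b g.c g.d g.a (g.b + 1) (g.c - 1) (g.d + 1) (g.K1 ω),
      s ∈ Rsq g.a (g.b + 1) (g.c - 1) (g.d + 1) ∧ (s ∉ Rsq g.a g.b g.c g.d ∨ g.d' ≤ s.2) := by
    rintro s ⟨k1, k2 | ⟨x, hx, l1, l2, l3, l4⟩⟩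
    · exact ⟨k1, Or.inl k2⟩
    · have := hG' x hx
      exact ⟨k1, Or.inr (by omega)⟩
  refine T_left hu'.1.1 hpo hρ hσ hπ hP1 hP2 (fun s hs k => ?_)
    (fun s hs k => ?_) (fun s hs k => ?_) (fun s hs k => ?_) (by omega) (by omega)
  · have := hO1 s hs
    rw [S2, mem_Rsq] at this
    omega
  · obtain ⟨k1, k2⟩ := hO2 s hs
    rw [mem_Rsq] at k1 k2
    omega
  · have := hO1 s hs
    rw [S2, mem_Rsq] at this
    omega
  · obtain ⟨k1, k2⟩ := hO2 s hs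
    rw [mem_Rsq] at k1 k2
    omega

theorem det3 (hG : g.P2 (g.K2 ω)) (h : ω ∈ g.C3 (g.K2 ω)) : g.P3 (g.K3 ω) := by
  obtain ⟨h1, h2, h3, h4, h5, h6⟩ : g.a < g.a' ∧ g.a' + 2 ≤ g.b' ∧ g.b' < g.b ∧ g.c < g.c' ∧
    g.c' < g.d' ∧ g.d' < g.d := ⟨g.ha, g.hm, g.hb, g.hc, g.hk, g.hd⟩
  intro κ hκ hκN
  have hG' : ∀ x ∈ g.K2 ω, g.d' < x.2 ∨ x.1 < g.a' := by
    intro x hx
    obtain ⟨k1, k2, k3, k4⟩ := g.K2_mem hx
    by_contra hc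
    exact hG x hx ⟨by omega, k2, k3, by omega⟩
  obtain ⟨u, hu, v, hv, hρ⟩ := h
  obtain ⟨q, q0, q1, q2, q3, q4⟩ := g.ex_q
  obtain ⟨p, hpA, hpK, hpo, P, hP1, hP2, hπ⟩ := reach (A := g.A2) (Z := g.Z2) (S := g.S3)
    (a := g.a) (b := g.b) (c := g.c) (d := g.d) (a1 := g.a - 1) (b1 := g.b + 1) (c1 := g.c)
    (d1 := g.d + 1) (n1 := g.a') (n2 := g.b) (n3 := g.c') (n4 := g.d') (by omega) (by omega)
    (fun x hx s hs k1 k2 k3 k4 => by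
      have := hG' x hx
      simp only [Z2, Bx, Finset.mem_sdiff, mem_Rsq] at hs ⊢
      omega)
    (fun x hx hxN => by
      have := hG' x hx
      obtain ⟨k1, k2, k3, k4⟩ := hxN
      omega) Finset.sdiff_subset
    (fun s hs => by rw [mem_Rsq] at *; omega)
    (fun s hs => by rw [S3, mem_Rsq] at hs; rw [mem_Rsq]; omega) hκ hκN
    ⟨by omega, by omega, by omega, by omega⟩ q0
  have hp1 : p.2 = g.c := by
    obtain ⟨k1, k2⟩ := hpA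
    by_contra hc
    exact hpK ⟨p, ⟨k1, by omega⟩, hpo, ReflTransGen.refl⟩
  have hct : ∀ z s : ℤ × ℤ, s ∈ g.S3 → s ∈ Tc (g.K2 ω) → H816.Co z s →
      Ct g.a g.b g.c g.d (g.a - 1) (g.b + 1) g.c (g.d + 1) (g.K2 ω) z ∧ z.1 ≤ g.a' := by
    intro z s hs hsT hz
    obtain ⟨k1, k2, k3, k4⟩ := co_bd hz
    rw [S3, mem_Rsq] at hs
    refine ⟨Ct_of_Tc hsT hz ⟨by omega, by omega, by omega, by omega⟩, ?_⟩
    obtain ⟨x, hx, l1, l2, l3, l4⟩ := hsT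
    have := hG' x hx
    omega
  have hu' : Ct g.a g.b g.c g.d (g.a - 1) (g.b + 1) g.c (g.d + 1) (g.K2 ω) u ∧ u.1 ≤ g.a' := by
    rcases hu with ⟨k1, ⟨k2, k3, k4, k5⟩, k6⟩ | ⟨s, hs, -, k2, k3⟩
    · exact ⟨Ct_end k1 ⟨⟨by omega, by omega, by omega, by omega⟩, by omega⟩, by omega⟩
    · exact hct u s hs k2 k3
  have hv' : Ct g.a g.b g.c g.d (g.a - 1) (g.b + 1) g.c (g.d + 1) (g.K2 ω) v ∧ v.1 = g.b := by
    rcases hv with ⟨k1, ⟨k2, k3, k4, k5⟩, k6⟩ | ⟨s, hs, k2, -⟩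
    · exact ⟨Ct_end k1 ⟨⟨by omega, by omega, by omega, by omega⟩, by omega⟩, k6⟩
    · exact absurd k2 id
  have hσ := sigma (a := g.a) (b := g.b) (c := g.c) (d := g.d) (a1 := g.a - 1) (b1 := g.b + 1)
    (c1 := g.c) (d1 := g.d + 1) (A := g.A2) (Z := g.Z2) (ω := ω) (u := u) (v := v) (by omega)
    (by omega) (by omega) (by omega) (by omega) (by omega) (by omega) (by omega)
    Finset.sdiff_subset (fun p hp => ⟨hp.1, by have := hp.2; omega⟩) hu'.1 hv'.1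
  have hO1 : ∀ s ∈ op ω ∩ ↑(g.S3 \ Lc g.S3 (g.K2 ω)), s ∈ g.S3 := fun s hs =>
    (Finset.mem_sdiff.1 (Finset.mem_coe.1 hs.2)).1
  have hO2 : ∀ s ∈ Ob g.a g.b g.c g.d (g.a - 1) (g.b + 1) g.c (g.d + 1) (g.K2 ω),
      s ∈ Rsq (g.a - 1) (g.b + 1) g.c (g.d + 1) ∧
        (s ∉ Rsq g.a g.b g.c g.d ∨ g.d' ≤ s.2 ∨ s.1 < g.a') := by
    rintro s ⟨k1, k2 | ⟨x, hx, l1, l2, l3, l4⟩⟩
    · exact ⟨k1, Or.inl k2⟩
    · have := hG' x hx
      exact ⟨k1, Or.inr (by omega)⟩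
  refine T_down hv'.1.1 hpo (rtg_symm hρ) (rtg_symm hσ) hπ hP1 hP2 (fun s hs k => ?_)
    (fun s hs k => ?_) (fun s hs k => ?_) (fun s hs k => ?_) (by omega) (by omega)
  · have := hO1 s hs
    rw [S3, mem_Rsq] at this
    omega
  · obtain ⟨k1, k2⟩ := hO2 s hs
    rw [mem_Rsq] at k1 k2
    omega
  · have := hO1 s hs
    rw [S3, mem_Rsq] at this
    omega
  · obtain ⟨k1, k2⟩ := hO2 s hs
    rw [mem_Rsq] at k1 k2
    omega

theorem det4 (hG : g.P3 (g.K3 ω)) (h : ω ∈ g.C4 (g.K3 ω)) : g.P4 (g.K4 ω) := by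
  obtain ⟨h1, h2, h3, h4, h5, h6⟩ : g.a < g.a' ∧ g.a' + 2 ≤ g.b' ∧ g.b' < g.b ∧ g.c < g.c' ∧
    g.c' < g.d' ∧ g.d' < g.d := ⟨g.ha, g.hm, g.hb, g.hc, g.hk, g.hd⟩
  intro κ hκ hκN
  have hG' : ∀ x ∈ g.K3 ω, g.d' < x.2 ∨ x.1 < g.a' ∨ x.2 < g.c' := by
    intro x hx
    obtain ⟨k1, k2, k3, k4⟩ := g.K3_mem hx
    by_contra hc
    exact hG x hx ⟨by omega, k2, by omega, by omega⟩
  obtain ⟨u, hu, v, hv, hρ⟩ := h
  obtain ⟨q, q0, q1, q2, q3, q4⟩ := g.ex_q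
  obtain ⟨p, hpA, hpK, hpo, P, hP1, hP2, hπ⟩ := reach (A := g.A3) (Z := g.Z3) (S := g.S4)
    (a := g.a) (b := g.b) (c := g.c) (d := g.d) (a1 := g.a - 1) (b1 := g.b) (c1 := g.c - 1)
    (d1 := g.d + 1) (n1 := g.a') (n2 := g.b') (n3 := g.c') (n4 := g.d') (by omega) (by omega)
    (fun x hx s hs k1 k2 k3 k4 => by
      have := hG' x hx
      simp only [Z3, Bx, Finset.mem_sdiff, mem_Rsq] at hs ⊢
      omega)
    (fun x hx hxN => by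
      have := hG' x hx
      obtain ⟨k1, k2, k3, k4⟩ := hxN
      omega) Finset.sdiff_subset
    (fun s hs => by rw [mem_Rsq] at *; omega)
    (fun s hs => by rw [S4, mem_Rsq] at hs; rw [mem_Rsq]; omega) hκ hκN
    ⟨by omega, by omega, by omega, by omega⟩ q0
  have hp1 : p.1 = g.b := by
    obtain ⟨k1, k2⟩ := hpA
    by_contra hc
    exact hpK ⟨p, ⟨k1, by omega⟩, hpo, ReflTransGen.refl⟩
  have hct : ∀ z s : ℤ × ℤ, s ∈ g.S4 → s ∈ Tc (g.K3 ω) → H816.Co z s →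
      Ct g.a g.b g.c g.d (g.a - 1) g.b (g.c - 1) (g.d + 1) (g.K3 ω) z := by
    intro z s hs hsT hz
    obtain ⟨k1, k2, k3, k4⟩ := co_bd hz
    rw [S4, mem_Rsq] at hs
    exact Ct_of_Tc hsT hz ⟨by omega, by omega, by omega, by omega⟩
  have hu' : Ct g.a g.b g.c g.d (g.a - 1) g.b (g.c - 1) (g.d + 1) (g.K3 ω) u ∧ g.d' ≤ u.2 := by
    rcases hu with ⟨k1, ⟨k2, k3, k4, k5⟩, k6⟩ | ⟨s, hs, k0, k2, k3⟩
    · exact ⟨Ct_end k1 ⟨⟨by omega, by omega, by omega, by omega⟩, by omega⟩, by omega⟩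
    · have := co_bd k3
      exact ⟨hct u s hs k2 k3, by omega⟩
  have hv' : Ct g.a g.b g.c g.d (g.a - 1) g.b (g.c - 1) (g.d + 1) (g.K3 ω) v ∧ v.2 ≤ g.c' := by
    rcases hv with ⟨k1, ⟨k2, k3, k4, k5⟩, k6⟩ | ⟨s, hs, k0, k2, k3⟩
    · exact ⟨Ct_end k1 ⟨⟨by omega, by omega, by omega, by omega⟩, by omega⟩, by omega⟩
    · have := co_bd k3
      exact ⟨hct v s hs k2 k3, by omega⟩
  have hσ := sigma (a := g.a) (b := g.b) (c := g.c) (d := g.d) (a1 := g.a - 1) (b1 := g.b)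
    (c1 := g.c - 1) (d1 := g.d + 1) (A := g.A3) (Z := g.Z3) (ω := ω) (u := u) (v := v) (by omega)
    (by omega) (by omega) (by omega) (by omega) (by omega) (by omega) (by omega)
    Finset.sdiff_subset (fun p hp => ⟨hp.1, by have := hp.2; omega⟩) hu'.1 hv'.1
  have hO1 : ∀ s ∈ op ω ∩ ↑(g.S4 \ Lc g.S4 (g.K3 ω)), s ∈ g.S4 := fun s hs =>
    (Finset.mem_sdiff.1 (Finset.mem_coe.1 hs.2)).1
  have hO2 : ∀ s ∈ Ob g.a g.b g.c g.d (g.a - 1) g.b (g.c - 1) (g.d + 1) (g.K3 ω),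
      s ∈ Rsq (g.a - 1) g.b (g.c - 1) (g.d + 1) ∧
        (s ∉ Rsq g.a g.b g.c g.d ∨ g.d' ≤ s.2 ∨ s.1 < g.a' ∨ s.2 < g.c') := by
    rintro s ⟨k1, k2 | ⟨x, hx, l1, l2, l3, l4⟩⟩
    · exact ⟨k1, Or.inl k2⟩
    · have := hG' x hx
      exact ⟨k1, Or.inr (by omega)⟩
  refine T_right hu'.1.1 hpo hρ hσ hπ hP1 hP2 (fun s hs k => ?_)
    (fun s hs k => ?_) (fun s hs k => ?_) (fun s hs k => ?_) (by omega) (by omega)
  · have := hO1 s hs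
    rw [S4, mem_Rsq] at this
    omega
  · obtain ⟨k1, k2⟩ := hO2 s hs
    rw [mem_Rsq] at k1 k2
    omega
  · have := hO1 s hs
    rw [S4, mem_Rsq] at this
    omega
  · obtain ⟨k1, k2⟩ := hO2 s hs
    rw [mem_Rsq] at k1 k2
    omega

end Geo

end Vale.Agent.P167.H906
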