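import Vale.Agent.P167.H906.Mask

/-!
# P167: arms in shapes, one scale and decay, `0 < Q ≤ 1`

`ArmPM U x r R`, `ArmDM U x r R`: open and dual paths in the squares `U` which cross the annulus.
`tsmd`: the bound at one scale for the intersections and the unions of two half planes.
`ArmDecM`, `ArmDecMD`: decay, for all configurations outside of `U`; `armsM`: both hold.
-/

set_option autoImplicit false

namespace Vale.Agent.P167.H906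

open Finset
open Relation (ReflTransGen)
open Vale.Agent.P145.FB (PStep PConn)
open Vale.Agent.P167 Vale.Agent.P167.FK Vale.Agent.P167.H262
open Vale.Agent.P167.H635 (HP Shp Ann)
open Vale.Agent.P167.FKA (Loc Ind)

variable {Q : ℝ} {A : Set (ℤ × ℤ)} {W Z D U : Finset (ℤ × ℤ)} {η ω : Cfg}
  {x : ℤ × ℤ} {r R : ℤ}

/-- Path of open squares of `U` from the box `(x, r)` to distance `R`. -/
def ArmPM (U : Finset (ℤ × ℤ)) (x : ℤ × ℤ) (r R : ℤ) (ω : Cfg) : Prop :=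
  ∃ u v : ℤ × ℤ, Even (u.1 + u.2) ∧ nm (u - x) ≤ r ∧ R ≤ nm (v - x) ∧
    ReflTransGen (PStep (op ω ∩ ↑U)) u v

/-- Dual path of closed squares of `U` from the box `(x, r)` to distance `R`. -/
def ArmDM (U : Finset (ℤ × ℤ)) (x : ℤ × ℤ) (r R : ℤ) (ω : Cfg) : Prop :=
  ∃ u v : ℤ × ℤ, Odd (u.1 + u.2) ∧ nm (u - x) ≤ r ∧ R ≤ nm (v - x) ∧
    ReflTransGen (PStep ((op ω)ᶜ ∩ ↑U)) u v

/-! ### Formal properties -/

/-- The part of a path in an annulus. -/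
theorem path_ann {F : Set (ℤ × ℤ)} {u v : ℤ × ℤ} (hrR : r ≤ R) (hu : nm (u - x) ≤ r)
    (hv : R ≤ nm (v - x)) (h : ReflTransGen (PStep F) u v) :
    ∃ u' v' : ℤ × ℤ, nm (u' - x) ≤ r ∧ R ≤ nm (v' - x) ∧ ReflTransGen (PStep F) u u' ∧
      ReflTransGen (PStep (F ∩ ↑(Bq x R \ Bq x r))) u' v' := by
  obtain ⟨v', h1, h2⟩ := FKA.exit h (hu.trans hrR) hv
  obtain ⟨h3, h4⟩ := h2
  have key : ∀ a, nm (a - x) ≤ R →
      ReflTransGen (fun y z => PStep F y z ∧ z ∈ {w | nm (w - x) ≤ R}) a v' →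
      ReflTransGen (PStep (F ∩ ↑(Bq x R \ Bq x r))) a v' ∨
      ∃ u', nm (u' - x) ≤ r ∧ ReflTransGen (PStep F) a u' ∧
        ReflTransGen (PStep (F ∩ ↑(Bq x R \ Bq x r))) u' v' := by
    intro a ha h
    induction h using ReflTransGen.head_induction_on with
    | refl => exact Or.inl ReflTransGen.refl
    | @head a b hab _ ih =>
      have hb : nm (b - x) ≤ R := hab.2
      rcases ih hb with h5 | ⟨u', h5, h6, h7⟩
      · by_cases hs : (min a.1 b.1, min a.2 b.2) ∈ Bq x r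
        · exact Or.inr ⟨b, (FKA.step_nm hab.1 hs).2, ReflTransGen.single hab.1, h5⟩
        · refine Or.inl (ReflTransGen.head ⟨hab.1.1, hab.1.2.1, hab.1.2.2, ?_⟩ h5)
          exact Finset.mem_coe.2 (Finset.mem_sdiff.2 ⟨FKA.step_mem hab.1 ha hb, hs⟩)
      · exact Or.inr ⟨u', h5, ReflTransGen.head hab.1 h6, h7⟩
  rcases key u (hu.trans hrR) h4 with h5 | ⟨u', h5, h6, h7⟩
  · exact ⟨u, v', hu, h1.ge, ReflTransGen.refl, h5⟩
  · exact ⟨u', v', h5, h1.ge, h6, h7⟩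

theorem ArmPM.sub {r' R' : ℤ} (hr : r ≤ r') (hr' : r' ≤ R') (hR : R' ≤ R)
    (h : ArmPM U x r R ω) : ArmPM (U ∩ (Bq x R' \ Bq x r')) x r' R' ω := by
  obtain ⟨u, v, h1, h2, h3, h4⟩ := h
  obtain ⟨u', v', h5, h6, h7, h8⟩ := path_ann hr' (h2.trans hr) (hR.trans h3) h4
  refine ⟨u', v', FKA.even_of_rtg h1 h7, h5, h6, rtg_mono ?_ h8⟩
  rw [Finset.coe_inter, ← Set.inter_assoc]

theorem ArmDM.sub {r' R' : ℤ} (hr : r ≤ r') (hr' : r' ≤ R') (hR : R' ≤ R)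
    (h : ArmDM U x r R ω) : ArmDM (U ∩ (Bq x R' \ Bq x r')) x r' R' ω := by
  obtain ⟨u, v, h1, h2, h3, h4⟩ := h
  obtain ⟨u', v', h5, h6, h7, h8⟩ := path_ann hr' (h2.trans hr) (hR.trans h3) h4
  refine ⟨u', v', ?_, h5, h6, rtg_mono ?_ h8⟩
  · have := rtg_par h7
    rw [Int.odd_iff] at *
    omega
  · rw [Finset.coe_inter, ← Set.inter_assoc]

theorem ArmPM.mono {U' : Finset (ℤ × ℤ)} (hU : U ⊆ U') (h : ArmPM U x r R ω) :
    ArmPM U' x r R ω := by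
  obtain ⟨u, v, h1, h2, h3, h4⟩ := h
  exact ⟨u, v, h1, h2, h3, rtg_mono (Set.inter_subset_inter_right _ (Finset.coe_subset.2 hU)) h4⟩

theorem ArmDM.mono {U' : Finset (ℤ × ℤ)} (hU : U ⊆ U') (h : ArmDM U x r R ω) :
    ArmDM U' x r R ω := by
  obtain ⟨u, v, h1, h2, h3, h4⟩ := h
  exact ⟨u, v, h1, h2, h3, rtg_mono (Set.inter_subset_inter_right _ (Finset.coe_subset.2 hU)) h4⟩

theorem ArmPM.loc {ω' : Cfg} (h : ∀ v ∈ U, ω v = ω' v) (ha : ArmPM U x r R ω) :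
    ArmPM U x r R ω' := by
  obtain ⟨u, v, h1, h2, h3, h4⟩ := ha
  refine ⟨u, v, h1, h2, h3, rtg_mono (fun s hs => ⟨?_, hs.2⟩) h4⟩
  show ω' s = true
  rw [← h s (Finset.mem_coe.1 hs.2)]
  exact hs.1

theorem ArmDM.loc {ω' : Cfg} (h : ∀ v ∈ U, ω v = ω' v) (ha : ArmDM U x r R ω) :
    ArmDM U x r R ω' := by
  obtain ⟨u, v, h1, h2, h3, h4⟩ := ha
  refine ⟨u, v, h1, h2, h3, rtg_mono (fun s hs => ⟨?_, hs.2⟩) h4⟩
  show ¬ ω' s = true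
  rw [← h s (Finset.mem_coe.1 hs.2)]
  exact hs.1

/-- Usual arms when the squares of the annulus off `D` are closed. -/
theorem armPM_of (hrR : r ≤ R) (hcl : ∀ v ∈ Bq x R \ Bq x r, v ∉ D → ω v = false)
    (h : ArmPx x r R ω) : ArmPM (D ∩ (Bq x R \ Bq x r)) x r R ω := by
  obtain ⟨u, v, h1, h2, h3, h4⟩ := h
  obtain ⟨u', v', h5, h6, h7, h8⟩ := path_ann hrR h2 h3 (FKA.rtg_of_pconn h4)
  refine ⟨u', v', FKA.even_of_rtg h1 h7, h5, h6, rtg_mono (fun s hs => ⟨hs.1, ?_⟩) h8⟩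
  have hs2 := Finset.mem_coe.1 hs.2
  refine Finset.mem_coe.2 (Finset.mem_inter.2 ⟨?_, hs2⟩)
  by_contra hc
  have h9 : ω s = true := hs.1
  rw [hcl s hs2 hc] at h9
  exact Bool.false_ne_true h9

theorem armDM_of (hrR : r ≤ R) (hcl : ∀ v ∈ Bq x R \ Bq x r, v ∉ D → ω v = true)
    (h : ArmDx x r R ω) : ArmDM (D ∩ (Bq x R \ Bq x r)) x r R ω := by
  obtain ⟨u, v, h1, h2, h3, h4⟩ := h
  obtain ⟨u', v', h5, h6, h7, h8⟩ := path_ann hrR h2 h3 (FKA.rtg_of_pconn h4)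
  refine ⟨u', v', ?_, h5, h6, rtg_mono (fun s hs => ⟨hs.1, ?_⟩) h8⟩
  · have := rtg_par h7
    rw [Int.odd_iff] at *
    omega
  · have hs2 := Finset.mem_coe.1 hs.2
    refine Finset.mem_coe.2 (Finset.mem_inter.2 ⟨?_, hs2⟩)
    by_contra hc
    exact hs.1 (hcl s hs2 hc)

/-! ### One scale -/

theorem mem_Z4_ann {hr : 1 ≤ r} {v : ℤ × ℤ} : v ∈ (ann x r hr).Z4 ↔ v ∈ Bq x (2 * r) \ Bq x r := by
  simp only [Geo.Z4, Geo.Bx, ann, Finset.mem_sdiff, mem_Rsq, Bq, Finset.mem_product,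
    Finset.mem_Ico]
  omega

/-- The bound for unions of quarter planes. -/
theorem tsm_QU (hQ : 0 < Q) (hQ1 : Q ≤ 1) {c : ℝ} (hc0 : 0 ≤ c)
    (hc : ∀ x y n : ℤ, 1 ≤ n →
      c ≤ Pr Q (Rsq x (x + (4 : ℕ) * n) y (y + n)) eta1 (CI (Rsq x (x + (4 : ℕ) * n) y (y + n))
        (EL x (x + (4 : ℕ) * n) y (y + n)) (ER x (x + (4 : ℕ) * n) y (y + n))) ∧
      c ≤ Pr Q (Rsq x (x + n) y (y + (4 : ℕ) * n)) eta1 (CI (Rsq x (x + n) y (y + (4 : ℕ) * n))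
        (ET x (x + n) y (y + (4 : ℕ) * n)) (EB x (x + n) y (y + (4 : ℕ) * n))))
    (hr : 1 ≤ r) (hη : Good η) (hU : U ⊆ Bq x (2 * r) \ Bq x r) (hUD : U ⊆ D)
    (hW : (ann x r hr).QU ((ann x r hr).Z4 \ U)) :
    Pr Q D η {ω | ArmDM U x r (2 * r) ω} ≤ 1 - c ^ 4 := by
  set g := ann x r hr with hg
  set W := g.Z4 \ U with hWdef
  have hD : g.Z4 \ W ⊆ D := by
    intro v hv
    rw [hWdef, Finset.mem_sdiff, Finset.mem_sdiff] at hv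
    refine hUD ?_
    by_contra hvU
    exact hv.2 ⟨hv.1, hvU⟩
  have q1 := (hc (x.1 - 2 * r) (x.2 + r) r hr).1
  have q2 := (hc (x.1 - 2 * r) (x.2 - 2 * r) r hr).2
  have q3 := (hc (x.1 - 2 * r) (x.2 - 2 * r) r hr).1
  have q4 := (hc (x.1 + r) (x.2 - 2 * r) r hr).2
  have e1 : x.1 - 2 * r + ((4 : ℕ) : ℤ) * r = x.1 + 2 * r := by push_cast; ring
  have e2 : x.2 - 2 * r + ((4 : ℕ) : ℤ) * r = x.2 + 2 * r := by push_cast; ring
  have e3 : x.2 + r + r = x.2 + 2 * r := by ring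
  have e4 : x.1 - 2 * r + r = x.1 - r := by ring
  have e5 : x.2 - 2 * r + r = x.2 - r := by ring
  have e6 : x.1 + r + r = x.1 + 2 * r := by ring
  rw [e1, e3] at q1
  rw [e4, e2] at q2
  rw [e1, e5] at q3
  rw [e6, e2] at q4
  have key := g.peelW hQ hQ1 hη hD hW hc0 q1 q2 q3 q4
  have h1 : Pr Q D η {ω | g.P4 (g.K4 (opn W ω))} ≤ Pr Q D η {ω | ArmDM U x r (2 * r) ω}ᶜ := by
    refine FKA.Pr_mono hQ fun ω hω harm => ?_
    obtain ⟨u, v, huo, hu, hv, huv⟩ := harm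
    -- the path in the box
    have hbox : ∀ w, ReflTransGen (PStep ((op ω)ᶜ ∩ ↑U)) u w → nm (w - x) ≤ 2 * r := by
      intro w hw
      rcases hw.cases_tail with h2 | ⟨y, -, h2⟩
      · rw [h2]; omega
      · exact (FKA.step_nm h2 (Finset.mem_sdiff.1 (hU (Finset.mem_coe.1 h2.2.2.2))).1).2
    have hvR := hbox v huv
    have hvo : Odd (v.1 + v.2) := by
      have := rtg_par huv
      rw [Int.odd_iff] at *
      omega
    rw [FKA.le_nm_iff] at hv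
    have hvR' := FKA.nm_le_iff.1 hvR
    rw [FKA.nm_le_iff] at hu
    simp only [Prod.fst_sub, Prod.snd_sub] at hv hvR' hu
    refine g.no_path (ω := opn W ω) (u := u) (v := v) hω ⟨⟨?_, ?_, ?_, ?_⟩, ?_⟩ hvo
      ⟨?_, ?_, ?_, ?_⟩ ?_
    any_goals (simp only [hg, ann]; omega)
    have hstep : ∀ w, ReflTransGen (PStep ((op ω)ᶜ ∩ ↑U)) u w → w ∈ Rsi g.a g.b g.c g.d ∧
        ReflTransGen (fun y z => PStep (op (opn W ω))ᶜ y z ∧ z ∈ Rsi g.a g.b g.c g.d) w u := by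
      intro w hw
      have hin : ∀ w, ReflTransGen (PStep ((op ω)ᶜ ∩ ↑U)) u w → w ∈ Rsi g.a g.b g.c g.d := by
        intro w hw
        have := FKA.nm_le_iff.1 (hbox w hw)
        simp only [Prod.fst_sub, Prod.snd_sub] at this
        exact ⟨by simp only [hg, ann]; omega, by simp only [hg, ann]; omega,
          by simp only [hg, ann]; omega, by simp only [hg, ann]; omega⟩
      refine ⟨hin w hw, ?_⟩
      induction hw with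
      | refl => exact ReflTransGen.refl
      | @tail y z hy hyz ih =>
        refine ReflTransGen.head ⟨?_, hin y hy⟩ ih
        have h3 := hyz.symm
        refine ⟨h3.1, h3.2.1, fun h4 => ?_⟩
        rcases mem_op_opn.1 h4 with h5 | h5
        · rw [hWdef, Finset.mem_sdiff] at h5
          exact h5.2 (Finset.mem_coe.1 h3.2.2.2)
        · exact h3.2.2.1 h5
    exact (hstep v huv).2
  rw [FKA.Pr_compl hQ] at h1
  linarith

/-- Complements of half planes. -/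
theorem hp_compl {H : ℤ × ℤ → Prop} (hH : HP H) (a b c d : ℤ) :
    (∃ l m : ℤ, (l ≤ a ∨ b ≤ m) ∧ ∀ v : ℤ × ℤ, a ≤ v.1 → v.1 < b → (¬ H v ↔ l ≤ v.1 ∧ v.1 < m)) ∨
    (∃ l m : ℤ, (l ≤ c ∨ d ≤ m) ∧ ∀ v : ℤ × ℤ, c ≤ v.2 → v.2 < d → (¬ H v ↔ l ≤ v.2 ∧ v.2 < m)) := by
  obtain ⟨t, h | h | h | h⟩ := hH
  · exact Or.inl ⟨t, b, Or.inr (le_refl _), fun v h1 h2 => by rw [h]; omega⟩
  · exact Or.inl ⟨a, t, Or.inl (le_refl _), fun v h1 h2 => by rw [h]; omega⟩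
  · exact Or.inr ⟨t, d, Or.inr (le_refl _), fun v h1 h2 => by rw [h]; omega⟩
  · exact Or.inr ⟨c, t, Or.inl (le_refl _), fun v h1 h2 => by rw [h]; omega⟩

/-- The intersections of two half planes. -/
theorem QU_and {g : Geo} {H1 H2 : ℤ × ℤ → Prop} (h1 : HP H1) (h2 : HP H2)
    (hU : ∀ v ∈ g.Z4, v ∈ U ↔ H1 v ∧ H2 v) : g.QU (g.Z4 \ U) := by
  have key : ∀ H : ℤ × ℤ → Prop, HP H → (∀ v ∈ g.Z4, ¬ H v → v ∉ U) → ∀ v ∈ g.Z4, ¬ H v →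
      ∃ l1 m1 l2 m2 : ℤ, (l1 ≤ g.a ∨ g.b ≤ m1) ∧
        (l2 ≤ g.c ∨ g.d ≤ m2) ∧ (l1 ≤ v.1 ∧ v.1 < m1 ∧ l2 ≤ v.2 ∧ v.2 < m2) ∧
        ∀ w ∈ g.Z4, l1 ≤ w.1 → w.1 < m1 → l2 ≤ w.2 → w.2 < m2 → w ∈ g.Z4 \ U := by
    intro H hH hHU v hv hvH
    have hb : ∀ w ∈ g.Z4, g.a ≤ w.1 ∧ w.1 < g.b ∧ g.c ≤ w.2 ∧ w.2 < g.d := fun w hw =>
      mem_Rsq.1 (Finset.mem_sdiff.1 hw).1
    obtain ⟨v1, v2, v3, v4⟩ := hb v hv
    rcases hp_compl hH g.a g.b g.c g.d with ⟨l, m, h3, h4⟩ | ⟨l, m, h3, h4⟩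
    · obtain ⟨h5, h6⟩ := (h4 v v1 v2).1 hvH
      refine ⟨l, m, g.c, g.d, h3, Or.inl (le_refl _), ⟨h5, h6, v3, v4⟩, fun w hw k1 k2 _ _ => ?_⟩
      obtain ⟨w1, w2, w3, w4⟩ := hb w hw
      exact Finset.mem_sdiff.2 ⟨hw, hHU w hw ((h4 w w1 w2).2 ⟨k1, k2⟩)⟩
    · obtain ⟨h5, h6⟩ := (h4 v v3 v4).1 hvH
      refine ⟨g.a, g.b, l, m, Or.inl (le_refl _), h3, ⟨v1, v2, h5, h6⟩, fun w hw _ _ k1 k2 => ?_⟩
      obtain ⟨w1, w2, w3, w4⟩ := hb w hw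
      exact Finset.mem_sdiff.2 ⟨hw, hHU w hw ((h4 w w3 w4).2 ⟨k1, k2⟩)⟩
  intro v hv
  obtain ⟨hv1, hv2⟩ := Finset.mem_sdiff.1 hv
  rw [hU v hv1] at hv2
  by_cases h3 : H1 v
  · exact key H2 h2 (fun w hw h4 h5 => h4 ((hU w hw).1 h5).2) v hv1 fun h4 => hv2 ⟨h3, h4⟩
  · exact key H1 h1 (fun w hw h4 h5 => h4 ((hU w hw).1 h5).1) v hv1 h3

/-- The unions of two half planes. -/
theorem QU_or {g : Geo} {H1 H2 : ℤ × ℤ → Prop} (h1 : HP H1) (h2 : HP H2)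
    (hU : ∀ v ∈ g.Z4, v ∈ U ↔ H1 v ∨ H2 v) : g.QU (g.Z4 \ U) ∨
      (∃ s t : ℤ, s < t ∧ ∀ v ∈ g.Z4, v ∈ U ↔ v.1 < s ∨ t ≤ v.1) ∨
      ∃ s t : ℤ, s < t ∧ ∀ v ∈ g.Z4, v ∈ U ↔ v.2 < s ∨ t ≤ v.2 := by
  have hb : ∀ w ∈ g.Z4, g.a ≤ w.1 ∧ w.1 < g.b ∧ g.c ≤ w.2 ∧ w.2 < g.d := fun w hw =>
    mem_Rsq.1 (Finset.mem_sdiff.1 hw).1
  rcases hp_compl h1 g.a g.b g.c g.d with ⟨l, m, h3, h4⟩ | ⟨l, m, h3, h4⟩ <;>
    rcases hp_compl h2 g.a g.b g.c g.d with ⟨l', m', h3', h4'⟩ | ⟨l', m', h3', h4'⟩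
  · -- parallel
    have hU' : ∀ v ∈ g.Z4, v ∉ U ↔ max l l' ≤ v.1 ∧ v.1 < min m m' := by
      intro v hv
      obtain ⟨v1, v2, v3, v4⟩ := hb v hv
      rw [hU v hv, not_or, h4 v v1 v2, h4' v v1 v2]
      omega
    by_cases hq : max l l' ≤ g.a ∨ g.b ≤ min m m' ∨ min m m' ≤ max l l'
    · left
      intro v hv
      obtain ⟨hv1, hv2⟩ := Finset.mem_sdiff.1 hv
      obtain ⟨v1, v2, v3, v4⟩ := hb v hv1
      have hv3 := (hU' v hv1).1 hv2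
      refine ⟨max l l', min m m', g.c, g.d, by omega, Or.inl (le_refl _),
        ⟨hv3.1, hv3.2, v3, v4⟩, fun w hw k1 k2 _ _ => Finset.mem_sdiff.2 ⟨hw, ?_⟩⟩
      exact (hU' w hw).2 ⟨k1, k2⟩
    · refine Or.inr (Or.inl ⟨max l l', min m m', by omega, fun v hv => ?_⟩)
      have := hU' v hv
      by_cases hvU : v ∈ U
      · refine iff_of_true hvU ?_
        by_contra hc
        exact this.2 (by omega) hvU
      · have h5 := this.1 hvU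
        exact iff_of_false hvU (by omega)
  · left
    intro v hv
    obtain ⟨hv1, hv2⟩ := Finset.mem_sdiff.1 hv
    obtain ⟨v1, v2, v3, v4⟩ := hb v hv1
    rw [hU v hv1, not_or, h4 v v1 v2, h4' v v3 v4] at hv2
    refine ⟨l, m, l', m', h3, h3', ⟨hv2.1.1, hv2.1.2, hv2.2.1, hv2.2.2⟩,
      fun w hw k1 k2 k3 k4 => Finset.mem_sdiff.2 ⟨hw, ?_⟩⟩
    obtain ⟨w1, w2, w3, w4⟩ := hb w hw
    rw [hU w hw, not_or, h4 w w1 w2, h4' w w3 w4]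
    exact ⟨⟨k1, k2⟩, k3, k4⟩
  · left
    intro v hv
    obtain ⟨hv1, hv2⟩ := Finset.mem_sdiff.1 hv
    obtain ⟨v1, v2, v3, v4⟩ := hb v hv1
    rw [hU v hv1, not_or, h4 v v3 v4, h4' v v1 v2] at hv2
    refine ⟨l', m', l, m, h3', h3, ⟨hv2.2.1, hv2.2.2, hv2.1.1, hv2.1.2⟩,
      fun w hw k1 k2 k3 k4 => Finset.mem_sdiff.2 ⟨hw, ?_⟩⟩
    obtain ⟨w1, w2, w3, w4⟩ := hb w hw
    rw [hU w hw, not_or, h4 w w3 w4, h4' w w1 w2]
    exact ⟨⟨k3, k4⟩, k1, k2⟩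
  · have hU' : ∀ v ∈ g.Z4, v ∉ U ↔ max l l' ≤ v.2 ∧ v.2 < min m m' := by
      intro v hv
      obtain ⟨v1, v2, v3, v4⟩ := hb v hv
      rw [hU v hv, not_or, h4 v v3 v4, h4' v v3 v4]
      omega
    by_cases hq : max l l' ≤ g.c ∨ g.d ≤ min m m' ∨ min m m' ≤ max l l'
    · left
      intro v hv
      obtain ⟨hv1, hv2⟩ := Finset.mem_sdiff.1 hv
      obtain ⟨v1, v2, v3, v4⟩ := hb v hv1
      have hv3 := (hU' v hv1).1 hv2
      refine ⟨g.a, g.b, max l l', min m m', Or.inl (le_refl _), by omega,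
        ⟨v1, v2, hv3.1, hv3.2⟩, fun w hw _ _ k1 k2 => Finset.mem_sdiff.2 ⟨hw, ?_⟩⟩
      exact (hU' w hw).2 ⟨k1, k2⟩
    · refine Or.inr (Or.inr ⟨max l l', min m m', by omega, fun v hv => ?_⟩)
      have := hU' v hv
      by_cases hvU : v ∈ U
      · refine iff_of_true hvU ?_
        by_contra hc
        exact this.2 (by omega) hvU
      · have h5 := this.1 hvU
        exact iff_of_false hvU (by omega)

/-- A dual arm of a union of two separated domains. -/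
theorem split_arm {U1 U2 : Finset (ℤ × ℤ)} (hU : ∀ v ∈ U, v ∈ U1 ∨ v ∈ U2)
    (hsep : ∀ s ∈ U1, ∀ t ∈ U2, s.1 + 1 < t.1 ∨ s.2 + 1 < t.2) (hrR : r < R)
    (h : ArmDM U x r R ω) : ArmDM U1 x r R ω ∨ ArmDM U2 x r R ω := by
  obtain ⟨u, v, h1, h2, h3, h4⟩ := h
  have key : ∀ w, ReflTransGen (PStep ((op ω)ᶜ ∩ ↑U)) u w → w = u ∨
      (ReflTransGen (PStep ((op ω)ᶜ ∩ ↑U1)) u w ∧ ∃ s ∈ U1, s.1 ≤ w.1 ∧ w.1 ≤ s.1 + 1 ∧
        s.2 ≤ w.2 ∧ w.2 ≤ s.2 + 1) ∨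
      (ReflTransGen (PStep ((op ω)ᶜ ∩ ↑U2)) u w ∧ ∃ s ∈ U2, s.1 ≤ w.1 ∧ w.1 ≤ s.1 + 1 ∧
        s.2 ≤ w.2 ∧ w.2 ≤ s.2 + 1) := by
    intro w hw
    induction hw with
    | refl => exact Or.inl rfl
    | @tail y z hy hyz ih =>
      obtain ⟨g1, g2, g3, g4⟩ := hyz
      have g5 : ∃ s : ℤ × ℤ, s = (min y.1 z.1, min y.2 z.2) := ⟨_, rfl⟩
      obtain ⟨s, hs⟩ := g5
      have e1 : s.1 ≤ y.1 ∧ y.1 ≤ s.1 + 1 ∧ s.2 ≤ y.2 ∧ y.2 ≤ s.2 + 1 := by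
        rw [hs]; simp only; omega
      have e2 : s.1 ≤ z.1 ∧ z.1 ≤ s.1 + 1 ∧ s.2 ≤ z.2 ∧ z.2 ≤ s.2 + 1 := by
        rw [hs]; simp only; omega
      rw [← hs] at g3 g4
      right
      rcases hU s (Finset.mem_coe.1 g4) with g6 | g6
      · left
        refine ⟨?_, s, g6, e2⟩
        rcases ih with i1 | ⟨i1, -⟩ | ⟨-, t, ht, i2, i3, i4, i5⟩
        · subst i1
          exact ReflTransGen.single ⟨g1, g2, by rw [← hs]; exact ⟨g3, Finset.mem_coe.2 g6⟩⟩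
        · exact i1.tail ⟨g1, g2, by rw [← hs]; exact ⟨g3, Finset.mem_coe.2 g6⟩⟩
        · have := hsep s g6 t ht
          omega
      · right
        refine ⟨?_, s, g6, e2⟩
        rcases ih with i1 | ⟨-, t, ht, i2, i3, i4, i5⟩ | ⟨i1, -⟩
        · subst i1
          exact ReflTransGen.single ⟨g1, g2, by rw [← hs]; exact ⟨g3, Finset.mem_coe.2 g6⟩⟩
        · have := hsep t ht s g6
          omega
        · exact i1.tail ⟨g1, g2, by rw [← hs]; exact ⟨g3, Finset.mem_coe.2 g6⟩⟩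
  rcases key v h4 with h5 | ⟨h5, -⟩ | ⟨h5, -⟩
  · rw [h5] at h3
    omega
  · exact Or.inl ⟨u, v, h1, h2, h3, h5⟩
  · exact Or.inr ⟨u, v, h1, h2, h3, h5⟩

/-- Two separated domains. -/
theorem tsm_two (hQ : 0 < Q) (hη : Good η) {U1 U2 : Finset (ℤ × ℤ)}
    (hU : ∀ v ∈ U, v ∈ U1 ∨ v ∈ U2) (h1 : U1 ⊆ D) (h2 : U2 ⊆ D)
    (hsep : ∀ s ∈ U1, ∀ t ∈ U2, s.1 + 1 < t.1 ∨ s.2 + 1 < t.2) (hrR : r < R) {c : ℝ}
    (hc : 0 ≤ c) (hb1 : Pr Q D η {ω | ArmDM U1 x r R ω} ≤ 1 - c)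
    (hb2 : ∀ ζ, Good ζ → Pr Q U2 ζ {ω | ArmDM U2 x r R ω} ≤ 1 - c) :
    Pr Q D η {ω | ArmDM U x r R ω} ≤ 1 - c ^ 2 := by
  have hdis : ∀ v ∈ U1, v ∉ U2 := by
    intro v hv hv'
    have := hsep v hv v hv'
    omega
  have h3 := H816.stop_le (Q := Q) (D := D) (η := η) hQ hη (E := fun _ => U2)
    (A := {ω | ArmDM U1 x r R ω}ᶜ) (F := {ω | ArmDM U2 x r R ω}ᶜ) (c := c) (fun _ => h2)
    (fun _ _ _ => rfl) (fun ω ω' h => ?_) (fun S _ _ => ?_)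
  · rw [FKA.Pr_compl hQ] at h3
    have h4 : Pr Q D η ({ω | ArmDM U1 x r R ω}ᶜ ∩ {ω | ArmDM U2 x r R ω}ᶜ) ≤
        Pr Q D η {ω | ArmDM U x r R ω}ᶜ := by
      refine FKA.Pr_mono hQ ?_
      rintro ω ⟨g1, g2⟩ g3
      rcases split_arm hU hsep hrR g3 with g4 | g4
      · exact g1 g4
      · exact g2 g4
    rw [FKA.Pr_compl hQ] at h4
    have h5 : c * c ≤ c * (1 - Pr Q D η {ω | ArmDM U1 x r R ω}) :=
      mul_le_mul_of_nonneg_left (by linarith) hc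
    nlinarith
  · refine not_congr ⟨fun h5 => h5.loc fun v hv => h v (hdis v hv),
      fun h5 => h5.loc fun v hv => (h v (hdis v hv)).symm⟩
  · rw [FKA.Pr_compl hQ]
    have := hb2 _ (good_cf D hη S)
    linarith

/-- **The bound at one scale**, dual paths, for the intersections and unions of two half planes. -/
theorem tsmd (hQ : 0 < Q) (hQ1 : Q ≤ 1) (h : VR Q) : ∃ c : ℝ, 0 < c ∧ c < 1 ∧
    ∀ (x : ℤ × ℤ) (r : ℤ) (D U : Finset (ℤ × ℤ)) (η : Cfg), 1 ≤ r → Good η → U ⊆ D →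
      U ⊆ Bq x (2 * r) \ Bq x r → Shp U x r (2 * r) →
      Pr Q D η {ω | ArmDM U x r (2 * r) ω} ≤ 1 - c := by
  obtain ⟨c, hc, h⟩ := h 4 (by norm_num)
  have hc1 : 0 < min c 1 := lt_min hc one_pos
  have hc2 : min c 1 ≤ 1 := min_le_right c 1
  have hp8 := pow_le_one₀ (n := 8) hc1.le hc2
  have hp48 : (min c 1) ^ 8 ≤ (min c 1) ^ 4 := pow_le_pow_of_le_one hc1.le hc2 (by norm_num)
  refine ⟨(min c 1) ^ 8 / 2, by positivity, by linarith, ?_⟩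
  have hpos : 0 < (min c 1) ^ 8 := by positivity
  intro x r D U η hr hη hUD hU hS
  have h' : ∀ x y n : ℤ, 1 ≤ n →
      min c 1 ≤ Pr Q (Rsq x (x + (4 : ℕ) * n) y (y + n)) eta1
        (CI (Rsq x (x + (4 : ℕ) * n) y (y + n))
        (EL x (x + (4 : ℕ) * n) y (y + n)) (ER x (x + (4 : ℕ) * n) y (y + n))) ∧
      min c 1 ≤ Pr Q (Rsq x (x + n) y (y + (4 : ℕ) * n)) eta1
        (CI (Rsq x (x + n) y (y + (4 : ℕ) * n))
        (ET x (x + n) y (y + (4 : ℕ) * n)) (EB x (x + n) y (y + (4 : ℕ) * n))) :=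
    fun x y n hn => ⟨(min_le_left c 1).trans (h x y n hn).1, (min_le_left c 1).trans (h x y n hn).2⟩
  set g := ann x r hr with hg
  have hZ : ∀ v, v ∈ g.Z4 ↔ v ∈ Bq x (2 * r) \ Bq x r := fun v => mem_Z4_ann
  have base : ∀ (D U : Finset (ℤ × ℤ)) (η : Cfg), Good η → U ⊆ D → U ⊆ Bq x (2 * r) \ Bq x r →
      g.QU (g.Z4 \ U) → Pr Q D η {ω | ArmDM U x r (2 * r) ω} ≤ 1 - (min c 1) ^ 4 :=
    fun D U η k1 k2 k3 k4 => tsm_QU hQ hQ1 hc1.le h' hr k1 k3 k2 k4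
  -- a domain which consists of two half planes
  have two : ∀ (H1 H2 : ℤ × ℤ → Prop), HP H1 → HP H2 → (∀ v ∈ g.Z4, v ∈ U ↔ H1 v ∨ H2 v) →
      (∀ s t : ℤ × ℤ, H1 s → H2 t → s.1 + 1 < t.1 ∨ s.2 + 1 < t.2) →
      Pr Q D η {ω | ArmDM U x r (2 * r) ω} ≤ 1 - (min c 1) ^ 8 := by
    classical
    intro H1 H2 hH1 hH2 hUH hsep
    have k1 : g.QU (g.Z4 \ U.filter fun v => H1 v) := QU_and hH1 hH1 fun v hv => by
      rw [Finset.mem_filter, hUH v hv]; tauto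
    have k2 : g.QU (g.Z4 \ U.filter fun v => H2 v) := QU_and hH2 hH2 fun v hv => by
      rw [Finset.mem_filter, hUH v hv]; tauto
    have h3 := tsm_two (Q := Q) (D := D) (η := η) (U := U) (x := x) (r := r) (R := 2 * r)
      (U1 := U.filter fun v => H1 v) (U2 := U.filter fun v => H2 v) (c := (min c 1) ^ 4) hQ hη
      (fun v hv => ?_) ((Finset.filter_subset _ _).trans hUD)
      ((Finset.filter_subset _ _).trans hUD)
      (fun s hs t ht => hsep s t (Finset.mem_filter.1 hs).2 (Finset.mem_filter.1 ht).2)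
      (by omega) (by positivity)
      (base D _ η hη ((Finset.filter_subset _ _).trans hUD) ((Finset.filter_subset _ _).trans hU)
        k1)
      (fun ζ hζ => base _ _ ζ hζ (Finset.Subset.refl _) ((Finset.filter_subset _ _).trans hU) k2)
    · refine h3.trans (le_of_eq ?_)
      ring
    · have := (hUH v ((hZ v).2 (hU hv))).1 hv
      rcases this with k | k
      · exact Or.inl (Finset.mem_filter.2 ⟨hv, k⟩)
      · exact Or.inr (Finset.mem_filter.2 ⟨hv, k⟩)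
  obtain ⟨H1, H2, hH1, hH2, hU1 | hU1⟩ := hS
  · have hq : g.QU (g.Z4 \ U) := QU_and hH1 hH2 fun v hv => hU1 v ((hZ v).1 hv)
    have := base D U η hη hUD hU hq
    linarith
  · rcases QU_or (g := g) (U := U) hH1 hH2 fun v hv => hU1 v ((hZ v).1 hv) with
      hq | ⟨s, t, hst, hq⟩ | ⟨s, t, hst, hq⟩
    · have := base D U η hη hUD hU hq
      linarith
    · have := two (fun v => v.1 < s) (fun v => t ≤ v.1) ⟨s, Or.inl fun _ => Iff.rfl⟩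
        ⟨t, Or.inr (Or.inl fun _ => Iff.rfl)⟩ hq (fun y z _ _ => by omega)
      linarith
    · have := two (fun v => v.2 < s) (fun v => t ≤ v.2)
        ⟨s, Or.inr (Or.inr (Or.inl fun _ => Iff.rfl))⟩
        ⟨t, Or.inr (Or.inr (Or.inr fun _ => Iff.rfl))⟩ hq (fun y z _ _ => by omega)
      linarith

end Vale.Agent.P167.H906
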